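import Vale.Agent.P139.H498.Int1
import Vale.Agent.P139.BU.Core

/-!
Gauge lemma: a radial pair `(F,G)` for the operators `RL1, RL2` gives, in the gauge
`F = q (A + i B)`, `G = conj q (A - i B)`, the system `SysAt`.
-/

open Complex
open scoped ComplexConjugate

namespace Vale.Agent.P139.H498

open Vale.Agent.P139.BU

/-- Weight `|q|^2 r^{d-1}`. -/
noncomputable def gM (d : ℕ) (q : ℝ → ℂ) (r : ℝ) : ℝ := normSq (q r) * r ^ (d - 1)

/-- Velocity `r/2 + 2 θ'`, `θ' = Im (q'/q)`. -/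
noncomputable def gX (q q1 : ℝ → ℂ) (r : ℝ) : ℝ :=
  r / 2 + 2 * ((q1 r * conj (q r)).im / normSq (q r))

/-- Angular eigenvalue `l(l+d-2)`. -/
noncomputable def gL (d l : ℕ) : ℝ := (l : ℝ) * ((l : ℝ) + d - 2)

/-- Potential of the `A` equation. -/
noncomputable def gVA (d m l : ℕ) (q : ℝ → ℂ) (r : ℝ) : ℝ :=
  gL d l / r ^ 2 + 2 * m * normSq (q r) ^ m

/-- Potential of the `B` equation. -/
noncomputable def gVB (d l : ℕ) (r : ℝ) : ℝ := gL d l / r ^ 2

/-- `F / q` and its derivatives. -/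
noncomputable def gf (q F : ℝ → ℂ) (r : ℝ) : ℂ := F r / q r
noncomputable def gf1 (q q1 F F1 : ℝ → ℂ) (r : ℝ) : ℂ := F1 r / q r - F r * q1 r / q r ^ 2
noncomputable def gf2 (q q1 q2 F F1 F2 : ℝ → ℂ) (r : ℝ) : ℂ :=
  F2 r / q r - 2 * F1 r * q1 r / q r ^ 2 - F r * q2 r / q r ^ 2 + 2 * F r * q1 r ^ 2 / q r ^ 3

theorem hasDerivAt_gf {q q1 F F1 : ℝ → ℂ} {r : ℝ} (hq0 : q r ≠ 0)
    (hq : HasDerivAt q (q1 r) r) (hF : HasDerivAt F (F1 r) r) :
    HasDerivAt (gf q F) (gf1 q q1 F F1 r) r := by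
  have h := hF.fun_div hq hq0
  refine h.congr_deriv ?_
  simp only [gf1]
  field_simp

theorem hasDerivAt_gf1 {q q1 q2 F F1 F2 : ℝ → ℂ} {r : ℝ} (hq0 : q r ≠ 0)
    (hq : HasDerivAt q (q1 r) r) (hq1 : HasDerivAt q1 (q2 r) r)
    (hF : HasDerivAt F (F1 r) r) (hF1 : HasDerivAt F1 (F2 r) r) :
    HasDerivAt (gf1 q q1 F F1) (gf2 q q1 q2 F F1 F2 r) r := by
  have h := (hF1.fun_div hq hq0).fun_sub ((hF.fun_mul hq1).fun_div (hq.fun_pow 2)
    (pow_ne_zero 2 hq0))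
  refine h.congr_deriv ?_
  simp only [gf2]
  field_simp
  push_cast
  ring

/-- `A = (F/q + G/conj q)/2`. -/
noncomputable def gA (q F G : ℝ → ℂ) (r : ℝ) : ℂ :=
  (gf q F r + gf (fun r => conj (q r)) G r) / 2
/-- `B = (F/q - G/conj q)/(2i)`. -/
noncomputable def gB (q F G : ℝ → ℂ) (r : ℝ) : ℂ :=
  (gf q F r - gf (fun r => conj (q r)) G r) / (2 * I)
noncomputable def gA1 (q q1 F F1 G G1 : ℝ → ℂ) (r : ℝ) : ℂ :=
  (gf1 q q1 F F1 r + gf1 (fun r => conj (q r)) (fun r => conj (q1 r)) G G1 r) / 2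
noncomputable def gB1 (q q1 F F1 G G1 : ℝ → ℂ) (r : ℝ) : ℂ :=
  (gf1 q q1 F F1 r - gf1 (fun r => conj (q r)) (fun r => conj (q1 r)) G G1 r) / (2 * I)
noncomputable def gA2 (q q1 q2 F F1 F2 G G1 G2 : ℝ → ℂ) (r : ℝ) : ℂ :=
  (gf2 q q1 q2 F F1 F2 r + gf2 (fun r => conj (q r)) (fun r => conj (q1 r))
    (fun r => conj (q2 r)) G G1 G2 r) / 2
noncomputable def gB2 (q q1 q2 F F1 F2 G G1 G2 : ℝ → ℂ) (r : ℝ) : ℂ :=
  (gf2 q q1 q2 F F1 F2 r - gf2 (fun r => conj (q r)) (fun r => conj (q1 r))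
    (fun r => conj (q2 r)) G G1 G2 r) / (2 * I)

/-- Derivative of the weight. -/
noncomputable def gM' (d : ℕ) (q q1 : ℝ → ℂ) (r : ℝ) : ℝ :=
  2 * (q1 r * conj (q r)).re * r ^ (d - 1) + normSq (q r) * (((d : ℝ) - 1) / r * r ^ (d - 1))

/-- Derivative of the velocity. -/
noncomputable def gX' (q q1 q2 : ℝ → ℂ) (r : ℝ) : ℝ :=
  1 / 2 + 2 * ((q2 r * conj (q r)).im / normSq (q r)
    - (q1 r * conj (q r)).im * (2 * (q1 r * conj (q r)).re) / normSq (q r) ^ 2)

/-- Derivative of `|q|^{2m}`. -/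
noncomputable def gP' (m : ℕ) (q q1 : ℝ → ℂ) (r : ℝ) : ℝ :=
  m * normSq (q r) ^ (m - 1) * (2 * (q1 r * conj (q r)).re)

noncomputable def gVB' (d l : ℕ) (r : ℝ) : ℝ := -(2 * gL d l / r ^ 3)
noncomputable def gVA' (d m l : ℕ) (q q1 : ℝ → ℂ) (r : ℝ) : ℝ :=
  gVB' d l r + 2 * m * gP' m q q1 r

theorem hasDerivAt_gM {d : ℕ} (hd : 1 ≤ d) {q q1 : ℝ → ℂ} {r : ℝ} (hr : 0 < r)
    (hq : HasDerivAt q (q1 r) r) : HasDerivAt (gM d q) (gM' d q q1 r) r := by
  have h := (hasDerivAt_normSq hq).fun_mul (hasDerivAt_pow (d - 1) r)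
  refine h.congr_deriv ?_
  simp only [gM']
  have e : ((d - 1 : ℕ) : ℝ) * r ^ (d - 1 - 1) = ((d : ℝ) - 1) / r * r ^ (d - 1) := by
    rcases Nat.lt_or_ge d 2 with h2 | h2
    · obtain rfl : d = 1 := by omega
      simp
    · obtain ⟨k, rfl⟩ : ∃ k, d = k + 2 := ⟨d - 2, by omega⟩
      have : k + 2 - 1 = k + 1 := by omega
      rw [this]
      simp only [Nat.add_sub_cancel]
      push_cast
      field_simp
      ring
  rw [e]

theorem hasDerivAt_gX {q q1 q2 : ℝ → ℂ} {r : ℝ} (hq0 : q r ≠ 0)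
    (hq : HasDerivAt q (q1 r) r) (hq1 : HasDerivAt q1 (q2 r) r) :
    HasDerivAt (gX q q1) (gX' q q1 q2 r) r := by
  have hn : normSq (q r) ≠ 0 := by simpa using hq0
  have h1 : HasDerivAt (fun r => (q1 r * conj (q r)).im) ((q2 r * conj (q r)).im) r := by
    have h := hasDerivAt_im (hq1.fun_mul (hasDerivAt_conj hq))
    refine h.congr_deriv ?_
    simp only [Complex.add_im, Complex.mul_im, Complex.conj_re, Complex.conj_im]
    ring
  have h := ((hasDerivAt_id r).div_const 2).fun_add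
    ((h1.fun_div (hasDerivAt_normSq hq) hn).const_mul 2)
  refine h.congr_deriv ?_
  simp only [gX']
  field_simp

theorem hasDerivAt_gP {m : ℕ} {q q1 : ℝ → ℂ} {r : ℝ} (hq : HasDerivAt q (q1 r) r) :
    HasDerivAt (fun r => normSq (q r) ^ m) (gP' m q q1 r) r :=
  ((hasDerivAt_normSq hq).fun_pow m).congr_deriv (by simp only [gP'])

theorem hasDerivAt_gVB {d l : ℕ} {r : ℝ} (hr : 0 < r) :
    HasDerivAt (gVB d l) (gVB' d l r) r := by
  have h := ((hasDerivAt_pow 2 r).fun_inv (pow_ne_zero 2 hr.ne')).const_mul (gL d l)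
  refine h.congr_deriv ?_ |>.congr_of_eventuallyEq ?_
  · simp only [gVB']
    field_simp
    norm_num
    ring
  · exact Filter.Eventually.of_forall fun x => by simp [gVB, div_eq_mul_inv]

theorem hasDerivAt_gVA {d m l : ℕ} {q q1 : ℝ → ℂ} {r : ℝ} (hr : 0 < r)
    (hq : HasDerivAt q (q1 r) r) : HasDerivAt (gVA d m l q) (gVA' d m l q q1 r) r :=
  ((hasDerivAt_gVB (d := d) (l := l) hr).fun_add ((hasDerivAt_gP (m := m) hq).const_mul
    (2 * (m : ℝ)))).congr_of_eventuallyEq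
    (Filter.Eventually.of_forall fun x => by simp [gVA, gVB])

theorem W1_eq (m : ℕ) (z : ℂ) : W1 m z = ((normSq z ^ m : ℝ) : ℂ) := by
  rw [W1, Complex.mul_conj]; push_cast; rfl

/-- The flux identity `(M X)' = 2 c0 M`. -/
theorem gMX {d m : ℕ} {w : ℝ} {q q1 q2 : ℝ → ℂ} {r : ℝ} (hr : 0 < r)
    (hq0 : q r ≠ 0)
    (hqe : q2 r + (((d : ℂ) - 1) / r) * q1 r + (I / 2) * (r * q1 r)
      + ((w : ℂ) + I * (aa m : ℂ)) * q r = W1 m (q r) * q r) :
    gM' d q q1 r * gX q q1 r + gM d q r * gX' q q1 q2 r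
      = 2 * ((d : ℝ) / 4 - aa m) * gM d q r := by
  have hn : normSq (q r) ≠ 0 := by simpa using hq0
  have e := congrArg (fun z => (z * conj (q r)).im) hqe
  simp only [W1_eq] at e
  have e2 : (q2 r * conj (q r)).im = -(((d : ℝ) - 1) / r * (q1 r * conj (q r)).im)
      - r / 2 * (q1 r * conj (q r)).re - aa m * normSq (q r) := by
    have h1 : ((((normSq (q r) ^ m : ℝ) : ℂ) * q r) * conj (q r)).im = 0 := by
      rw [mul_assoc, Complex.mul_conj, ← Complex.ofReal_mul, Complex.ofReal_im]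
    rw [h1] at e
    have h2 : ((((d : ℂ) - 1) / r) * q1 r * conj (q r)).im
        = ((d : ℝ) - 1) / r * (q1 r * conj (q r)).im := by
      have : (((d : ℂ) - 1) / r) * q1 r * conj (q r)
          = ((((d : ℝ) - 1) / r : ℝ) : ℂ) * (q1 r * conj (q r)) := by push_cast; ring
      rw [this, Complex.im_ofReal_mul]
    have h3 : ((I / 2) * (r * q1 r) * conj (q r)).im = r / 2 * (q1 r * conj (q r)).re := by
      have : (I / 2) * (r * q1 r) * conj (q r)
          = ((r / 2 : ℝ) : ℂ) * (I * (q1 r * conj (q r))) := by push_cast; ring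
      rw [this, Complex.im_ofReal_mul, Complex.I_mul_im]
    have h4 : (((w : ℂ) + I * (aa m : ℂ)) * q r * conj (q r)).im = aa m * normSq (q r) := by
      rw [mul_assoc, Complex.mul_conj, Complex.im_mul_ofReal]
      simp
    rw [add_mul, add_mul, add_mul, Complex.add_im, Complex.add_im, Complex.add_im, h2, h3, h4] at e
    linarith
  simp only [gM', gX, gX', gM, e2]
  have hr' := hr.ne'
  field_simp
  ring

theorem gauge_alg {m : ℕ} {r L P a w dd : ℝ} {lam q q1 q2 pG f0 f1 f2 g0 : ℂ} (hq0 : q ≠ 0)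
    (hqe : q2 + ((dd - 1) / r) * q1 + (I / 2) * (r * q1) + ((w : ℂ) + I * (a : ℂ)) * q
      = (P : ℂ) * q)
    (hWp : pG = q * (P * g0))
    (h : I * ((f2 * q + 2 * f1 * q1 + f0 * q2) + (((dd : ℂ) - 1) / r) * (f1 * q + f0 * q1)
        - L / (r : ℂ) ^ 2 * (f0 * q)) - (r / 2) * (f1 * q + f0 * q1) - (a : ℂ) * (f0 * q)
        + I * (w : ℂ) * (f0 * q) - I * (((m : ℂ) + 1) * P * (f0 * q) + (m : ℂ) * pG)
      = lam * (f0 * q)) :
    I * (f2 + (((dd : ℂ) - 1) / r + 2 * (q1 / q)) * f1 - L / (r : ℂ) ^ 2 * f0) - (r / 2) * f1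
      - I * (m * (P * (f0 + g0))) = lam * f0 := by
  have h2 : q * (I * (f2 + (((dd : ℂ) - 1) / r + 2 * (q1 / q)) * f1 - L / (r : ℂ) ^ 2 * f0)
      - (r / 2) * f1 - I * (m * (P * (f0 + g0)))) = q * (lam * f0) := by
    have e1 : q * (I * (f2 + (((dd : ℂ) - 1) / r + 2 * (q1 / q)) * f1 - L / (r : ℂ) ^ 2 * f0)
      - (r / 2) * f1 - I * (m * (P * (f0 + g0))))
      = I * (f2 * q + (((dd : ℂ) - 1) / r) * f1 * q + 2 * q1 * f1 - L / (r : ℂ) ^ 2 * f0 * q)
        - (r / 2) * f1 * q - I * (m * (P * (f0 + g0))) * q := by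
      field_simp
      ring
    rw [e1]
    have hI : I * I = -1 := Complex.I_mul_I
    linear_combination h - I * f0 * hqe + I * m * hWp + (r / 2 * q1 + a * q) * f0 * hI
  exact mul_left_cancel₀ hq0 h2

/-- The equation for `F/q`. -/
theorem gauge_F {d m l : ℕ} {w : ℝ} {lam : ℂ} {q q1 q2 F F1 F2 G : ℝ → ℂ} {r : ℝ} (hm : 1 ≤ m)
    (hq0 : q r ≠ 0)
    (hqe : q2 r + (((d : ℂ) - 1) / r) * q1 r + (I / 2) * (r * q1 r)
      + ((w : ℂ) + I * (aa m : ℂ)) * q r = W1 m (q r) * q r)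
    (h1 : I * (F2 r + (((d : ℂ) - 1) / r) * F1 r - ((l : ℂ) * ((l : ℂ) + d - 2) / (r : ℂ) ^ 2) * F r)
      - (r / 2) * F1 r - (aa m : ℂ) * F r + I * (w : ℂ) * F r
      - I * (((m : ℂ) + 1) * W1 m (q r) * F r + (m : ℂ) * W2 m (q r) * G r) = lam * F r) :
    I * (gf2 q q1 q2 F F1 F2 r + (((d : ℂ) - 1) / r + 2 * (q1 r / q r)) * gf1 q q1 F F1 r
        - (gL d l : ℂ) / (r : ℂ) ^ 2 * gf q F r) - (r / 2) * gf1 q q1 F F1 r
      - I * (m * (((normSq (q r) ^ m : ℝ) : ℂ) * (gf q F r + gf (fun r => conj (q r)) G r)))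
      = lam * gf q F r := by
  have hqc : conj (q r) ≠ 0 := (map_ne_zero _).mpr hq0
  rw [W1_eq] at hqe h1
  have hF : F r = gf q F r * q r := by simp only [gf]; field_simp
  have hF1 : F1 r = gf1 q q1 F F1 r * q r + gf q F r * q1 r := by
    simp only [gf, gf1]; field_simp; ring
  have hF2 : F2 r = gf2 q q1 q2 F F1 F2 r * q r + 2 * gf1 q q1 F F1 r * q1 r
      + gf q F r * q2 r := by
    simp only [gf, gf1, gf2]; field_simp; ring
  have hG : W2 m (q r) * G r = q r * (((normSq (q r) ^ m : ℝ) : ℂ)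
      * gf (fun r => conj (q r)) G r) := by
    have : W2 m (q r) * conj (q r) = q r * ((normSq (q r) ^ m : ℝ) : ℂ) := by
      obtain ⟨k, rfl⟩ : ∃ k, m = k + 1 := ⟨m - 1, by omega⟩
      rw [← W1_eq, W1, W2, Nat.add_sub_cancel]
      ring
    have h2 : G r = conj (q r) * gf (fun r => conj (q r)) G r := by
      simp only [gf]; field_simp
    rw [h2]
    have h3 : gf (fun r => conj (q r)) G r = gf (fun r => conj (q r)) G r := rfl
    calc W2 m (q r) * (conj (q r) * gf (fun r => conj (q r)) G r)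
        = (W2 m (q r) * conj (q r)) * gf (fun r => conj (q r)) G r := by ring
      _ = _ := by rw [this]; simp only [gf]; field_simp
  refine gauge_alg (pG := W2 m (q r) * G r) (w := w) (a := aa m) (q2 := q2 r) (dd := (d : ℝ)) hq0
    ?_ hG ?_
  · push_cast at hqe ⊢
    exact hqe
  · rw [hF, hF1, hF2] at h1
    simp only [gL]
    push_cast at h1 ⊢
    linear_combination h1

/-- The equation for `G / conj q`. -/
theorem gauge_G {d m l : ℕ} {w : ℝ} {lam : ℂ} {q q1 q2 F G G1 G2 : ℝ → ℂ} {r : ℝ} (hm : 1 ≤ m)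
    (hq0 : q r ≠ 0)
    (hqe : q2 r + (((d : ℂ) - 1) / r) * q1 r + (I / 2) * (r * q1 r)
      + ((w : ℂ) + I * (aa m : ℂ)) * q r = W1 m (q r) * q r)
    (h2 : -(I * (G2 r + (((d : ℂ) - 1) / r) * G1 r
        - ((l : ℂ) * ((l : ℂ) + d - 2) / (r : ℂ) ^ 2) * G r))
      - (r / 2) * G1 r - (aa m : ℂ) * G r - I * (w : ℂ) * G r
      + I * (((m : ℂ) + 1) * W1 m (q r) * G r + (m : ℂ) * conj (W2 m (q r)) * F r) = lam * G r) :
    -(I * (gf2 (fun r => conj (q r)) (fun r => conj (q1 r)) (fun r => conj (q2 r)) G G1 G2 r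
        + (((d : ℂ) - 1) / r + 2 * (conj (q1 r) / conj (q r)))
          * gf1 (fun r => conj (q r)) (fun r => conj (q1 r)) G G1 r
        - (gL d l : ℂ) / (r : ℂ) ^ 2 * gf (fun r => conj (q r)) G r))
      - (r / 2) * gf1 (fun r => conj (q r)) (fun r => conj (q1 r)) G G1 r
      + I * (m * (((normSq (q r) ^ m : ℝ) : ℂ) * (gf q F r + gf (fun r => conj (q r)) G r)))
      = lam * gf (fun r => conj (q r)) G r := by
  have h3 := congrArg conj h2
  have h4 := gauge_F (F := fun r => conj (G r)) (F1 := fun r => conj (G1 r))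
    (F2 := fun r => conj (G2 r)) (G := fun r => conj (F r)) (l := l) (lam := conj lam) hm hq0 hqe
    (by
      have hW : conj (W1 m (q r)) = W1 m (q r) := by rw [W1_eq, Complex.conj_ofReal]
      simp only [map_add, map_sub, map_mul, map_neg, map_div₀, map_pow, Complex.conj_I,
        Complex.conj_ofReal, map_natCast, map_one, map_ofNat, Complex.conj_conj, hW] at h3
      linear_combination h3)
  have h5 := congrArg conj h4
  simp only [gf, gf1, gf2, map_add, map_sub, map_mul, map_div₀, map_pow, Complex.conj_I,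
    Complex.conj_ofReal, map_natCast, map_one, map_ofNat, Complex.conj_conj] at h5 ⊢
  linear_combination h5

theorem div_two_I (x : ℂ) : x / (2 * I) = -(I * x) / 2 := by
  have hI : I * I = -1 := Complex.I_mul_I
  rw [div_eq_div_iff (by simp) (by norm_num)]
  linear_combination (2 * x) * hI

/-- GAUGE LEMMA, data form. -/
theorem gauge_sysAt {d m l : ℕ} {w : ℝ} {lam : ℂ} {q q1 q2 F F1 F2 G G1 G2 : ℝ → ℂ} {r : ℝ}
    (hd : 1 ≤ d) (hm : 1 ≤ m) (hr : 0 < r) (hq0 : q r ≠ 0)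
    (hq : HasDerivAt q (q1 r) r) (hq1 : HasDerivAt q1 (q2 r) r)
    (hF : HasDerivAt F (F1 r) r) (hF1 : HasDerivAt F1 (F2 r) r)
    (hG : HasDerivAt G (G1 r) r) (hG1 : HasDerivAt G1 (G2 r) r)
    (hqe : q2 r + (((d : ℂ) - 1) / r) * q1 r + (I / 2) * (r * q1 r)
      + ((w : ℂ) + I * (aa m : ℂ)) * q r = W1 m (q r) * q r)
    (h1 : I * (F2 r + (((d : ℂ) - 1) / r) * F1 r - ((l : ℂ) * ((l : ℂ) + d - 2) / (r : ℂ) ^ 2) * F r)
      - (r / 2) * F1 r - (aa m : ℂ) * F r + I * (w : ℂ) * F r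
      - I * (((m : ℂ) + 1) * W1 m (q r) * F r + (m : ℂ) * W2 m (q r) * G r) = lam * F r)
    (h2 : -(I * (G2 r + (((d : ℂ) - 1) / r) * G1 r
        - ((l : ℂ) * ((l : ℂ) + d - 2) / (r : ℂ) ^ 2) * G r))
      - (r / 2) * G1 r - (aa m : ℂ) * G r - I * (w : ℂ) * G r
      + I * (((m : ℂ) + 1) * W1 m (q r) * G r + (m : ℂ) * conj (W2 m (q r)) * F r) = lam * G r) :
    SysAt ((d : ℝ) / 4 - aa m) (lam - (((d : ℝ) / 4 - aa m : ℝ) : ℂ)) (gM d q) (gX q q1)
      (gVA d m l q) (gVB d l) (gA q F G) (gB q F G) (gA1 q q1 F F1 G G1) (gB1 q q1 F F1 G G1) r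
      (gM' d q q1 r) (gX' q q1 q2 r) (gVA' d m l q q1 r) (gVB' d l r)
      (gA2 q q1 q2 F F1 F2 G G1 G2 r) (gB2 q q1 q2 F F1 F2 G G1 G2 r) := by
  have hqc0 : conj (q r) ≠ 0 := (map_ne_zero _).mpr hq0
  have hqc := hasDerivAt_conj hq
  have hqc1 := hasDerivAt_conj hq1
  have hf := hasDerivAt_gf hq0 hq hF
  have hf1 := hasDerivAt_gf1 (q2 := q2) (F2 := F2) hq0 hq hq1 hF hF1
  have hg := hasDerivAt_gf (q := fun r => conj (q r)) (q1 := fun r => conj (q1 r)) hqc0 hqc hG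
  have hg1 := hasDerivAt_gf1 (q := fun r => conj (q r)) (q1 := fun r => conj (q1 r))
    (q2 := fun r => conj (q2 r)) (F2 := G2) hqc0 hqc hqc1 hG hG1
  have hn : normSq (q r) ≠ 0 := by simpa using hq0
  have ef := gauge_F (l := l) hm hq0 hqe h1
  have eg := gauge_G (l := l) hm hq0 hqe h2
  -- the logarithmic derivative
  set κ : ℝ := (q1 r * conj (q r)).re / normSq (q r) with hκ
  set β : ℝ := (q1 r * conj (q r)).im / normSq (q r) with hβ
  have hK : q1 r / q r = κ + β * I := by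
    have e1 : q1 r / q r = (q1 r * conj (q r)) / (normSq (q r) : ℂ) := by
      rw [← Complex.mul_conj]; field_simp
    rw [e1, hκ, hβ]
    push_cast
    rw [div_mul_eq_mul_div, ← add_div, Complex.re_add_im]
  have hKc : conj (q1 r) / conj (q r) = κ - β * I := by
    have := congrArg conj hK
    simpa [map_div₀, sub_eq_add_neg] using this
  have hM' : (gM' d q q1 r : ℂ) = gM d q r * (((d : ℂ) - 1) / r + 2 * κ) := by
    have : gM' d q q1 r = gM d q r * (((d : ℝ) - 1) / r + 2 * κ) := by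
      simp only [gM', gM, hκ]; field_simp
      ring
    rw [this]; push_cast; ring
  have hX : (gX q q1 r : ℂ) = r / 2 + 2 * β := by
    simp only [gX, hβ]; push_cast; ring
  rw [hK] at ef
  rw [hKc] at eg
  have hI : I * I = -1 := Complex.I_mul_I
  refine ⟨hasDerivAt_gM hd hr hq, hasDerivAt_gX hq0 hq hq1, hasDerivAt_gVA hr hq,
    hasDerivAt_gVB hr, gMX hr hq0 hqe, ?_, ?_, ?_, ?_, ?_, ?_⟩
  · exact (hf.fun_add hg).div_const 2
  · exact (hf.fun_sub hg).div_const (2 * I)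
  · exact (hf1.fun_add hg1).div_const 2
  · exact (hf1.fun_sub hg1).div_const (2 * I)
  · rw [hM', hX]
    simp only [gA, gA1, gA2, gB, gB1, gVA, div_two_I]
    generalize gf2 q q1 q2 F F1 F2 r = f2 at *
    generalize gf1 q q1 F F1 r = f1 at *
    generalize gf q F r = f0 at *
    generalize gf2 (fun r => conj (q r)) (fun r => conj (q1 r)) (fun r => conj (q2 r)) G G1 G2 r
      = g2 at *
    generalize gf1 (fun r => conj (q r)) (fun r => conj (q1 r)) G G1 r = g1 at *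
    generalize gf (fun r => conj (q r)) G r = g0 at *
    push_cast at ef eg ⊢
    linear_combination (gM d q r : ℂ) * (-(I / 2)) * ef + (gM d q r : ℂ) * (I / 2) * eg
      + (gM d q r : ℂ) / 2 * ((f2 + (((d : ℂ) - 1) / r + 2 * (κ + β * I)) * f1
          - (gL d l : ℂ) / (r : ℂ) ^ 2 * f0 - m * ((normSq (q r) : ℂ) ^ m * (f0 + g0)))
        + (g2 + (((d : ℂ) - 1) / r + 2 * (κ - β * I)) * g1
          - (gL d l : ℂ) / (r : ℂ) ^ 2 * g0 - m * ((normSq (q r) : ℂ) ^ m * (f0 + g0)))) * hI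
  · rw [hM', hX]
    simp only [gA, gA1, gB2, gB, gB1, gVB, div_two_I]
    generalize gf2 q q1 q2 F F1 F2 r = f2 at *
    generalize gf1 q q1 F F1 r = f1 at *
    generalize gf q F r = f0 at *
    generalize gf2 (fun r => conj (q r)) (fun r => conj (q1 r)) (fun r => conj (q2 r)) G G1 G2 r
      = g2 at *
    generalize gf1 (fun r => conj (q r)) (fun r => conj (q1 r)) G G1 r = g1 at *
    generalize gf (fun r => conj (q r)) G r = g0 at *
    push_cast at ef eg ⊢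
    linear_combination (gM d q r : ℂ) * (-(1 / 2)) * ef - (gM d q r : ℂ) * (1 / 2) * eg
      + (gM d q r : ℂ) * β * (g1 + f1) * hI

end Vale.Agent.P139.H498
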