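import Vale.Agent.P139.H498.Int3

/-!
The integrated identities on `(0, b]`.
-/

open Complex Set MeasureTheory Filter Topology
open scoped ComplexConjugate

namespace Vale.Agent.P139.H498

/-- Bounded and continuous on `(0, b]`. -/
def BC {E : Type*} [NormedAddCommGroup E] (b : ℝ) (φ : ℝ → E) : Prop :=
  ContinuousOn φ (Ioc 0 b) ∧ ∃ C, ∀ r ∈ Ioc 0 b, ‖φ r‖ ≤ C

namespace BC

variable {b : ℝ}

theorem add {E : Type*} [NormedAddCommGroup E] {φ ψ : ℝ → E} (h1 : BC b φ) (h2 : BC b ψ) :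
    BC b (fun r => φ r + ψ r) := by
  obtain ⟨c1, C1, hC1⟩ := h1
  obtain ⟨c2, C2, hC2⟩ := h2
  exact ⟨c1.add c2, C1 + C2, fun r hr => (norm_add_le _ _).trans
    (add_le_add (hC1 r hr) (hC2 r hr))⟩

theorem neg {E : Type*} [NormedAddCommGroup E] {φ : ℝ → E} (h1 : BC b φ) :
    BC b (fun r => -φ r) := by
  obtain ⟨c1, C1, hC1⟩ := h1
  exact ⟨c1.neg, C1, fun r hr => by rw [norm_neg]; exact hC1 r hr⟩

theorem sub {E : Type*} [NormedAddCommGroup E] {φ ψ : ℝ → E} (h1 : BC b φ) (h2 : BC b ψ) :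
    BC b (fun r => φ r - ψ r) := by
  simpa [sub_eq_add_neg] using h1.add h2.neg

theorem mul {E : Type*} [NormedRing E] {φ ψ : ℝ → E} (h1 : BC b φ) (h2 : BC b ψ) :
    BC b (fun r => φ r * ψ r) := by
  obtain ⟨c1, C1, hC1⟩ := h1
  obtain ⟨c2, C2, hC2⟩ := h2
  refine ⟨c1.mul c2, C1 * C2, fun r hr => (norm_mul_le _ _).trans
    (mul_le_mul (hC1 r hr) (hC2 r hr) (norm_nonneg _) ((norm_nonneg _).trans (hC1 r hr)))⟩

theorem const {E : Type*} [NormedAddCommGroup E] (c : E) : BC b (fun _ => c) :=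
  ⟨continuousOn_const, ‖c‖, fun _ _ => le_rfl⟩

theorem id_ : BC b (fun r => r) :=
  ⟨continuousOn_id, b, fun r hr => by rw [Real.norm_eq_abs, abs_of_pos hr.1]; exact hr.2⟩

theorem re {φ : ℝ → ℂ} (h : BC b φ) : BC b (fun r => (φ r).re) := by
  obtain ⟨c1, C1, hC1⟩ := h
  exact ⟨Complex.continuous_re.comp_continuousOn c1, C1,
    fun r hr => (Complex.abs_re_le_norm _).trans (hC1 r hr)⟩

theorem conj_ {φ : ℝ → ℂ} (h : BC b φ) : BC b (fun r => conj (φ r)) := by
  obtain ⟨c1, C1, hC1⟩ := h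
  exact ⟨Complex.continuous_conj.comp_continuousOn c1, C1,
    fun r hr => by rw [Complex.norm_conj]; exact hC1 r hr⟩

theorem ofReal {φ : ℝ → ℝ} (h : BC b φ) : BC b (fun r => (φ r : ℂ)) := by
  obtain ⟨c1, C1, hC1⟩ := h
  exact ⟨Complex.continuous_ofReal.comp_continuousOn c1, C1,
    fun r hr => by rw [Complex.norm_real]; exact hC1 r hr⟩

theorem normSq_ {φ : ℝ → ℂ} (h : BC b φ) : BC b (fun r => normSq (φ r)) := by
  have := (h.mul h.conj_).re
  have e : (fun r => normSq (φ r)) = fun r => (φ r * conj (φ r)).re := by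
    funext r
    rw [Complex.mul_conj, Complex.ofReal_re]
  rw [e]; exact this

theorem congr {E : Type*} [NormedAddCommGroup E] {φ ψ : ℝ → E} (h : BC b φ)
    (he : ∀ r ∈ Ioc 0 b, ψ r = φ r) : BC b ψ := by
  obtain ⟨c1, C1, hC1⟩ := h
  exact ⟨c1.congr he, C1, fun r hr => by rw [he r hr]; exact hC1 r hr⟩

theorem intble {E : Type*} [NormedAddCommGroup E] [NormedSpace ℝ E] {φ : ℝ → E} (hb : 0 < b)
    (h : BC b φ) : IntervalIntegrable φ volume 0 b :=
  intble_of_bdd hb h.1 h.2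

theorem vanish {E : Type*} [NormedAddCommGroup E] [NormedSpace ℝ E] {Φ ψ : ℝ → E}
    (h : BC b ψ) (he : ∀ r ∈ Ioc 0 b, Φ r = r • ψ r) : ∃ C, ∀ r ∈ Ioc 0 b, ‖Φ r‖ ≤ C * r := by
  obtain ⟨_, C1, hC1⟩ := h
  refine ⟨C1, fun r hr => ?_⟩
  rw [he r hr, norm_smul, Real.norm_eq_abs, abs_of_pos hr.1, mul_comm]
  exact mul_le_mul_of_nonneg_right (hC1 r hr) hr.1.le

end BC

/-- The system on `(0,b]` with the natural behaviour of the coefficients at `0`. -/
structure SysOn (c0 : ℝ) (μ : ℂ) (M X VA VB M' X' VA' VB' : ℝ → ℝ) (A B A1 B1 A2 B2 : ℝ → ℂ)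
    (b : ℝ) : Prop where
  hb : 0 < b
  sys : ∀ r ∈ Ioc 0 b, SysAt c0 μ M X VA VB A B A1 B1 r (M' r) (X' r) (VA' r) (VB' r)
    (A2 r) (B2 r)
  cX' : ContinuousOn X' (Ioc 0 b)
  cVA' : ContinuousOn VA' (Ioc 0 b)
  cVB' : ContinuousOn VB' (Ioc 0 b)
  Mpos : ∀ r ∈ Ioc 0 b, 0 < M r
  coef : ∃ C, ∀ r ∈ Ioc 0 b, M r ≤ C * r ^ 2 ∧ |M' r| ≤ C / r * M r ∧ |X r| ≤ C * r ∧
    |X' r| ≤ C ∧ |VA r| ≤ C / r ^ 2 ∧ |VB r| ≤ C / r ^ 2 ∧ |VA' r| ≤ C / r ^ 3 ∧
    |VB' r| ≤ C / r ^ 3
  bdd : ∃ C, ∀ r ∈ Ioc 0 b, ‖A r‖ ≤ C ∧ ‖B r‖ ≤ C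

namespace SysOn

variable {c0 : ℝ} {μ : ℂ} {M X VA VB M' X' VA' VB' : ℝ → ℝ} {A B A1 B1 A2 B2 : ℝ → ℂ} {b : ℝ}

/-- `A', B' = O(1/r)`. -/
theorem reg (h : SysOn c0 μ M X VA VB M' X' VA' VB' A B A1 B1 A2 B2 b) :
    ∃ C, ∀ r ∈ Ioc 0 b, r * ‖A1 r‖ ≤ C ∧ r * ‖B1 r‖ ≤ C := by
  obtain ⟨C, hC⟩ := h.coef
  obtain ⟨C0, hC0⟩ := h.bdd
  have hb := h.hb
  have hC0' : 0 ≤ C0 := (norm_nonneg _).trans (hC0 b ⟨hb, le_rfl⟩).1
  have hCp : 0 ≤ C := by
    have := (hC b ⟨hb, le_rfl⟩).2.2.2.1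
    exact (abs_nonneg _).trans this
  set κ : ℝ := ‖μ‖ + |c0| with hκ
  have hκ0 : 0 ≤ κ := by positivity
  -- the common bound for the second derivatives
  have key : ∀ r ∈ Ioc 0 b, ∀ (m m' x v : ℝ) (a a1 a2 e e1 : ℂ), 0 < m → |m'| ≤ C / r * m →
      |x| ≤ C * r → |v| ≤ C / r ^ 2 → ‖a‖ ≤ C0 → ‖e‖ ≤ C0 →
      ((m : ℂ) * a2 + m' * a1 - m * v * a = m * (μ * e + x * e1 + c0 * e) ∨
        (m : ℂ) * a2 + m' * a1 - m * v * a = -(m * (μ * e + x * e1 + c0 * e))) →
      ‖a2‖ ≤ (C + C * b ^ 2) * max ‖a1‖ ‖e1‖ / r + (C * C0 + κ * C0 * b ^ 2) / r ^ 2 := by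
    intro r hr m m' x v a a1 a2 e e1 hm hm' hx hv ha he heq
    have hr0 : 0 < r := hr.1
    have e0 : ‖(m : ℂ) * a2‖ ≤ |m'| * ‖a1‖ + m * |v| * ‖a‖
        + m * (κ * ‖e‖ + |x| * ‖e1‖) := by
      have hrhs : ‖(m : ℂ) * (μ * e + x * e1 + c0 * e)‖ ≤ m * (κ * ‖e‖ + |x| * ‖e1‖) := by
        rw [norm_mul, Complex.norm_real, Real.norm_eq_abs, abs_of_pos hm]
        refine mul_le_mul_of_nonneg_left ?_ hm.le
        refine (norm_add_le _ _).trans ?_
        refine (add_le_add (norm_add_le _ _) le_rfl).trans ?_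
        rw [norm_mul, norm_mul, norm_mul, Complex.norm_real, Complex.norm_real,
          Real.norm_eq_abs, Real.norm_eq_abs, hκ]
        nlinarith
      have hsplit : ‖(m : ℂ) * a2‖ ≤ ‖(m' : ℂ) * a1‖ + ‖(m : ℂ) * v * a‖
          + ‖(m : ℂ) * (μ * e + x * e1 + c0 * e)‖ := by
        rcases heq with heq | heq
        · have : (m : ℂ) * a2 = (m : ℂ) * (μ * e + x * e1 + c0 * e) - m' * a1 + m * v * a := by
            linear_combination heq
          rw [this]
          refine (norm_add_le _ _).trans ?_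
          refine (add_le_add (norm_sub_le _ _) le_rfl).trans ?_
          linarith
        · have : (m : ℂ) * a2 = -((m : ℂ) * (μ * e + x * e1 + c0 * e)) - m' * a1 + m * v * a := by
            linear_combination heq
          rw [this]
          refine (norm_add_le _ _).trans ?_
          refine (add_le_add (norm_sub_le _ _) le_rfl).trans ?_
          rw [norm_neg]
          linarith
      refine hsplit.trans ?_
      rw [norm_mul, norm_mul, norm_mul, Complex.norm_real, Complex.norm_real, Complex.norm_real,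
        Real.norm_eq_abs, Real.norm_eq_abs, Real.norm_eq_abs, abs_of_pos hm]
      linarith
    rw [norm_mul, Complex.norm_real, Real.norm_eq_abs, abs_of_pos hm] at e0
    have e2 : m * ‖a2‖ ≤ m * (C / r * ‖a1‖ + C / r ^ 2 * C0 + (κ * C0 + C * r * ‖e1‖)) := by
      refine e0.trans ?_
      have t1 : |m'| * ‖a1‖ ≤ C / r * m * ‖a1‖ := mul_le_mul_of_nonneg_right hm' (norm_nonneg _)
      have t2 : m * |v| * ‖a‖ ≤ m * (C / r ^ 2) * C0 :=
        mul_le_mul (mul_le_mul_of_nonneg_left hv hm.le) ha (norm_nonneg _) (by positivity)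
      have t3 : κ * ‖e‖ + |x| * ‖e1‖ ≤ κ * C0 + C * r * ‖e1‖ :=
        add_le_add (mul_le_mul_of_nonneg_left he hκ0)
          (mul_le_mul_of_nonneg_right hx (norm_nonneg _))
      have t4 := mul_le_mul_of_nonneg_left t3 hm.le
      nlinarith
    have e3 := le_of_mul_le_mul_left e2 hm
    refine e3.trans ?_
    set mx := max ‖a1‖ ‖e1‖
    have hmx1 : ‖a1‖ ≤ mx := le_max_left _ _
    have hmx2 : ‖e1‖ ≤ mx := le_max_right _ _
    have hmx0 : 0 ≤ mx := (norm_nonneg _).trans hmx1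
    have s1 : C / r * ‖a1‖ ≤ C / r * mx := mul_le_mul_of_nonneg_left hmx1 (by positivity)
    have s2 : C * r * ‖e1‖ ≤ C * b ^ 2 * mx / r := by
      rw [le_div_iff₀ hr0]
      have : C * r * ‖e1‖ * r = C * r ^ 2 * ‖e1‖ := by ring
      rw [this]
      have hrb : r ^ 2 ≤ b ^ 2 := by nlinarith [hr.2]
      exact mul_le_mul (mul_le_mul_of_nonneg_left hrb hCp) hmx2 (norm_nonneg _) (by positivity)
    have s3 : κ * C0 ≤ κ * C0 * b ^ 2 / r ^ 2 := by
      rw [le_div_iff₀ (by positivity)]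
      have hrb : r ^ 2 ≤ b ^ 2 := by nlinarith [hr.2]
      exact mul_le_mul_of_nonneg_left hrb (by positivity)
    have : (C + C * b ^ 2) * mx / r + (C * C0 + κ * C0 * b ^ 2) / r ^ 2
        = C / r * mx + C * b ^ 2 * mx / r + C / r ^ 2 * C0 + κ * C0 * b ^ 2 / r ^ 2 := by
      field_simp
      ring
    rw [this]
    linarith
  have hmain := reg_zero (u := fun r => (A r, B r)) (u1 := fun r => (A1 r, B1 r))
    (u2 := fun r => (A2 r, B2 r)) (b := b) (C0 := C0) (C1 := C + C * b ^ 2)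
    (C2 := C * C0 + κ * C0 * b ^ 2) hb
    (fun r hr => (h.sys r hr).hA.prodMk (h.sys r hr).hB)
    (fun r hr => (h.sys r hr).hA1.prodMk (h.sys r hr).hB1)
    (fun r hr => by
      rw [Prod.norm_def]
      exact max_le (hC0 r hr).1 (hC0 r hr).2)
    (fun r hr => by
      obtain ⟨hM, hM', hX, hX', hVA, hVB, hVA', hVB'⟩ := hC r hr
      obtain ⟨hA, hB⟩ := hC0 r hr
      rw [Prod.norm_def, Prod.norm_def]
      refine max_le ?_ ?_
      · exact key r hr (M r) (M' r) (X r) (VA r) (A r) (A1 r) (A2 r) (B r) (B1 r)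
          (h.Mpos r hr) hM' hX hVA hA hB (Or.inl (h.sys r hr).eqA)
      · have := key r hr (M r) (M' r) (X r) (VB r) (B r) (B1 r) (B2 r) (A r) (A1 r)
          (h.Mpos r hr) hM' hX hVB hB hA (Or.inr (h.sys r hr).eqB)
        rw [max_comm] at this
        exact this)
    (by positivity) (by positivity)
  refine ⟨4 * C0 / (1 / (8 * (C + C * b ^ 2 + 1))) + 4 * (C * C0 + κ * C0 * b ^ 2),
    fun r hr => ⟨?_, ?_⟩⟩
  · refine le_trans ?_ (hmain r hr)
    refine mul_le_mul_of_nonneg_left ?_ hr.1.le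
    exact norm_fst_le (A1 r, B1 r)
  · refine le_trans ?_ (hmain r hr)
    refine mul_le_mul_of_nonneg_left ?_ hr.1.le
    exact norm_snd_le (A1 r, B1 r)

section basic

variable (h : SysOn c0 μ M X VA VB M' X' VA' VB' A B A1 B1 A2 B2 b)
include h

theorem bcA : BC b A := by
  obtain ⟨C, hC⟩ := h.bdd
  exact ⟨fun r hr => (h.sys r hr).hA.continuousAt.continuousWithinAt, C, fun r hr => (hC r hr).1⟩

theorem bcB : BC b B := by
  obtain ⟨C, hC⟩ := h.bdd
  exact ⟨fun r hr => (h.sys r hr).hB.continuousAt.continuousWithinAt, C, fun r hr => (hC r hr).2⟩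

theorem bcA1 : BC b (fun r => (r : ℂ) * A1 r) := by
  obtain ⟨C, hC⟩ := h.reg
  refine ⟨fun r hr => ?_, C, fun r hr => ?_⟩
  · exact ((Complex.continuous_ofReal.continuousAt).mul
      (h.sys r hr).hA1.continuousAt).continuousWithinAt
  · rw [norm_mul, Complex.norm_real, Real.norm_eq_abs, abs_of_pos hr.1]
    exact (hC r hr).1

theorem bcB1 : BC b (fun r => (r : ℂ) * B1 r) := by
  obtain ⟨C, hC⟩ := h.reg
  refine ⟨fun r hr => ?_, C, fun r hr => ?_⟩
  · exact ((Complex.continuous_ofReal.continuousAt).mul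
      (h.sys r hr).hB1.continuousAt).continuousWithinAt
  · rw [norm_mul, Complex.norm_real, Real.norm_eq_abs, abs_of_pos hr.1]
    exact (hC r hr).2

theorem bcM : BC b (fun r => M r / r ^ 2) := by
  obtain ⟨C, hC⟩ := h.coef
  refine ⟨fun r hr => ?_, C, fun r hr => ?_⟩
  · exact ((h.sys r hr).hM.continuousAt.div (continuousAt_id.pow 2)
      (pow_ne_zero 2 hr.1.ne')).continuousWithinAt
  · have := (hC r hr).1
    have h2 := h.Mpos r hr
    rw [Real.norm_eq_abs, abs_of_nonneg (by positivity), div_le_iff₀ (pow_pos hr.1 2)]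
    exact this

theorem bcX : BC b (fun r => X r / r) := by
  obtain ⟨C, hC⟩ := h.coef
  refine ⟨fun r hr => ?_, C, fun r hr => ?_⟩
  · exact ((h.sys r hr).hX.continuousAt.div continuousAt_id hr.1.ne').continuousWithinAt
  · have := (hC r hr).2.2.1
    rw [Real.norm_eq_abs, abs_div, abs_of_pos hr.1, div_le_iff₀ hr.1]
    exact this

theorem bcX' : BC b X' := by
  obtain ⟨C, hC⟩ := h.coef
  exact ⟨h.cX', C, fun r hr => (hC r hr).2.2.2.1⟩

theorem bcVA : BC b (fun r => r ^ 2 * VA r) := by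
  obtain ⟨C, hC⟩ := h.coef
  refine ⟨fun r hr => ?_, C, fun r hr => ?_⟩
  · exact ((continuousAt_id.pow 2).mul (h.sys r hr).hVA.continuousAt).continuousWithinAt
  · have := (hC r hr).2.2.2.2.1
    rw [le_div_iff₀ (pow_pos hr.1 2)] at this
    rw [Real.norm_eq_abs, abs_mul, abs_of_pos (pow_pos hr.1 2), mul_comm]
    exact this

theorem bcVB : BC b (fun r => r ^ 2 * VB r) := by
  obtain ⟨C, hC⟩ := h.coef
  refine ⟨fun r hr => ?_, C, fun r hr => ?_⟩
  · exact ((continuousAt_id.pow 2).mul (h.sys r hr).hVB.continuousAt).continuousWithinAt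
  · have := (hC r hr).2.2.2.2.2.1
    rw [le_div_iff₀ (pow_pos hr.1 2)] at this
    rw [Real.norm_eq_abs, abs_mul, abs_of_pos (pow_pos hr.1 2), mul_comm]
    exact this

theorem bcVA' : BC b (fun r => r ^ 3 * VA' r) := by
  obtain ⟨C, hC⟩ := h.coef
  refine ⟨(continuousOn_id.pow 3).mul h.cVA', C, fun r hr => ?_⟩
  have := (hC r hr).2.2.2.2.2.2.1
  rw [le_div_iff₀ (pow_pos hr.1 3)] at this
  rw [Real.norm_eq_abs, abs_mul, abs_of_pos (pow_pos hr.1 3), mul_comm]
  exact this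

theorem bcVB' : BC b (fun r => r ^ 3 * VB' r) := by
  obtain ⟨C, hC⟩ := h.coef
  refine ⟨(continuousOn_id.pow 3).mul h.cVB', C, fun r hr => ?_⟩
  have := (hC r hr).2.2.2.2.2.2.2
  rw [le_div_iff₀ (pow_pos hr.1 3)] at this
  rw [Real.norm_eq_abs, abs_mul, abs_of_pos (pow_pos hr.1 3), mul_comm]
  exact this

theorem bcMA1 : BC b (fun r => M r * normSq (A1 r)) :=
  (h.bcM.mul h.bcA1.normSq_).congr fun r hr => by
    have := hr.1.ne'
    simp only [map_mul, Complex.normSq_ofReal]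
    field_simp

theorem bcMB1 : BC b (fun r => M r * normSq (B1 r)) :=
  (h.bcM.mul h.bcB1.normSq_).congr fun r hr => by
    have := hr.1.ne'
    simp only [map_mul, Complex.normSq_ofReal]
    field_simp

theorem bcMX'A1 : BC b (fun r => M r * (X' r * normSq (A1 r))) :=
  (h.bcMA1.mul h.bcX').congr fun r _ => by ring

theorem bcMX'B1 : BC b (fun r => M r * (X' r * normSq (B1 r))) :=
  (h.bcMB1.mul h.bcX').congr fun r _ => by ring

theorem bcM0 : BC b M :=
  (h.bcM.mul (BC.id_.mul BC.id_)).congr fun r hr => by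
    have := hr.1.ne'
    field_simp

theorem bcX0 : BC b X :=
  (h.bcX.mul BC.id_).congr fun r hr => by
    have := hr.1.ne'
    field_simp

theorem bcMA : BC b (fun r => M r * normSq (A r)) := h.bcM0.mul h.bcA.normSq_

theorem bcMB : BC b (fun r => M r * normSq (B r)) := h.bcM0.mul h.bcB.normSq_

theorem bcMVA : BC b (fun r => M r * (VA r * normSq (A r))) :=
  (h.bcM.mul (h.bcVA.mul h.bcA.normSq_)).congr fun r hr => by
    have := hr.1.ne'
    field_simp

theorem bcMVB : BC b (fun r => M r * (VB r * normSq (B r))) :=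
  (h.bcM.mul (h.bcVB.mul h.bcB.normSq_)).congr fun r hr => by
    have := hr.1.ne'
    field_simp

theorem bcMXVA' : BC b (fun r => M r * (X r * VA' r * normSq (A r))) :=
  (h.bcM.mul (h.bcX.mul (h.bcVA'.mul h.bcA.normSq_))).congr fun r hr => by
    have := hr.1.ne'
    field_simp

theorem bcMXVB' : BC b (fun r => M r * (X r * VB' r * normSq (B r))) :=
  (h.bcM.mul (h.bcX.mul (h.bcVB'.mul h.bcB.normSq_))).congr fun r hr => by
    have := hr.1.ne'
    field_simp

theorem bcD0A : BC b (fun r => X r * A1 r + c0 * A r) :=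
  ((h.bcX.ofReal.mul h.bcA1).add ((BC.const (c0 : ℂ)).mul h.bcA)).congr fun r hr => by
    have : (r : ℂ) ≠ 0 := by exact_mod_cast hr.1.ne'
    push_cast
    field_simp

theorem bcD0B : BC b (fun r => X r * B1 r + c0 * B r) :=
  ((h.bcX.ofReal.mul h.bcB1).add ((BC.const (c0 : ℂ)).mul h.bcB)).congr fun r hr => by
    have : (r : ℂ) ≠ 0 := by exact_mod_cast hr.1.ne'
    push_cast
    field_simp

theorem bcMAD0B : BC b (fun r => M r * (A r * conj (X r * B1 r + c0 * B r)).re) :=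
  h.bcM0.mul (h.bcA.mul h.bcD0B.conj_).re

theorem bcMAB : BC b (fun r => (M r : ℂ) * (A r * conj (B r))) :=
  h.bcM0.ofReal.mul (h.bcA.mul h.bcB.conj_)

theorem bcMAB' : BC b (fun r => M r * (A r * conj (B r)).re) :=
  h.bcM0.mul (h.bcA.mul h.bcB.conj_).re

theorem bcMD0BA : BC b (fun r => (M r : ℂ) * ((X r * B1 r + c0 * B r) * conj (A r))) :=
  h.bcM0.ofReal.mul (h.bcD0B.mul h.bcA.conj_)

theorem bcMD0AB : BC b (fun r => (M r : ℂ) * ((X r * A1 r + c0 * A r) * conj (B r))) :=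
  h.bcM0.ofReal.mul (h.bcD0A.mul h.bcB.conj_)

theorem bcMVAB : BC b (fun r => M r * (VA r - VB r) * (A r * conj (B r)).re) :=
  (h.bcM.mul ((h.bcVA.sub h.bcVB).mul (h.bcA.mul h.bcB.conj_).re)).congr fun r hr => by
    have := hr.1.ne'
    field_simp

/-- Integrated Morawetz identity. -/
theorem mor :
    ∫ r in (0 : ℝ)..b, (-(M r * (X' r * (normSq (A1 r) + normSq (B1 r))
        - X r * VA' r / 2 * normSq (A r) - X r * VB' r / 2 * normSq (B r)))
        + 2 * μ.re * (M r * (A r * conj (X r * B1 r + c0 * B r)).re))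
      = morB c0 M X VA VB A B A1 B1 b + M b * X b * (μ * (B b * conj (A b))).re := by
  refine ftc_zero (Φ := fun r => morB c0 M X VA VB A B A1 B1 r
    + M r * X r * (μ * (B r * conj (A r))).re) h.hb (fun r hr => (h.sys r hr).morawetz') ?_ ?_
  · refine BC.intble h.hb ?_
    refine BC.congr (((h.bcMX'A1.add h.bcMX'B1).neg.add ((BC.const (1 / 2 : ℝ)).mul
      (h.bcMXVA'.add h.bcMXVB'))).add ((BC.const (2 * μ.re)).mul h.bcMAD0B)) ?_
    intro r _
    ring
  · refine BC.vanish (ψ := fun r => M r / r ^ 2 * (X r / r) * (-(normSq ((r : ℂ) * A1 r)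
      + normSq ((r : ℂ) * B1 r)) / 2 + r ^ 2 * VA r / 2 * normSq (A r)
      + r ^ 2 * VB r / 2 * normSq (B r))
      - c0 * (M r / r ^ 2) * (((r : ℂ) * A1 r * conj (A r)).re + ((r : ℂ) * B1 r * conj (B r)).re)
      + r * (M r / r ^ 2 * (X r)) * (μ * (B r * conj (A r))).re) ?_ ?_
    · refine BC.add (BC.sub ?_ ?_) ?_
      · refine (h.bcM.mul h.bcX).mul ?_
        refine BC.congr (((BC.const (-(1 / 2) : ℝ)).mul (h.bcA1.normSq_.add h.bcB1.normSq_)).add
          ((BC.const (1 / 2 : ℝ)).mul ((h.bcVA.mul h.bcA.normSq_).add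
            (h.bcVB.mul h.bcB.normSq_)))) ?_
        intro r _
        ring
      · exact ((BC.const c0).mul h.bcM).mul ((h.bcA1.mul h.bcA.conj_).re.add
          (h.bcB1.mul h.bcB.conj_).re)
      · exact (BC.id_.mul (h.bcM.mul h.bcX0)).mul ((BC.const μ).mul (h.bcB.mul h.bcA.conj_)).re
    · intro r hr
      have hr' := hr.1.ne'
      have e1 : ((r : ℂ) * A1 r * conj (A r)).re = r * (A1 r * conj (A r)).re := by
        rw [mul_assoc, Complex.re_ofReal_mul]
      have e2 : ((r : ℂ) * B1 r * conj (B r)).re = r * (B1 r * conj (B r)).re := by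
        rw [mul_assoc, Complex.re_ofReal_mul]
      rw [e1, e2]
      simp only [morB, map_mul, Complex.normSq_ofReal, smul_eq_mul]
      field_simp

/-- Integrated pairing of the first equation with `A`. -/
theorem intA :
    ∫ r in (0 : ℝ)..b, (M r * (((normSq (A1 r) + VA r * normSq (A r) : ℝ) : ℂ)
        + (μ * B r + X r * B1 r + c0 * B r) * conj (A r)) : ℂ)
      = (M b : ℂ) * (A1 b * conj (A b)) := by
  refine ftc_zero (Φ := fun r => (M r : ℂ) * (A1 r * conj (A r))) h.hb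
    (fun r hr => (h.sys r hr).pairA) ?_ ?_
  · refine BC.intble h.hb ?_
    refine BC.congr ((h.bcMA1.add h.bcMVA).ofReal.add (((BC.const μ).mul
      (h.bcM0.ofReal.mul (h.bcB.mul h.bcA.conj_))).add h.bcMD0BA)) ?_
    intro r _
    push_cast
    ring
  · refine BC.vanish (ψ := fun r => ((M r / r ^ 2 : ℝ) : ℂ) * ((r : ℂ) * A1 r * conj (A r))) ?_ ?_
    · exact h.bcM.ofReal.mul (h.bcA1.mul h.bcA.conj_)
    · intro r hr
      have : (r : ℂ) ≠ 0 := by exact_mod_cast hr.1.ne'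
      rw [Complex.real_smul]
      push_cast
      field_simp

/-- Integrated pairing of the second equation with `B`. -/
theorem intB :
    ∫ r in (0 : ℝ)..b, (M r * (((normSq (B1 r) + VB r * normSq (B r) : ℝ) : ℂ)
        - (μ * A r + X r * A1 r + c0 * A r) * conj (B r)) : ℂ)
      = (M b : ℂ) * (B1 b * conj (B b)) := by
  refine ftc_zero (Φ := fun r => (M r : ℂ) * (B1 r * conj (B r))) h.hb
    (fun r hr => (h.sys r hr).pairB) ?_ ?_
  · refine BC.intble h.hb ?_
    refine BC.congr ((h.bcMB1.add h.bcMVB).ofReal.sub (((BC.const μ).mul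
      (h.bcM0.ofReal.mul (h.bcA.mul h.bcB.conj_))).add h.bcMD0AB)) ?_
    intro r _
    push_cast
    ring
  · refine BC.vanish (ψ := fun r => ((M r / r ^ 2 : ℝ) : ℂ) * ((r : ℂ) * B1 r * conj (B r))) ?_ ?_
    · exact h.bcM.ofReal.mul (h.bcB1.mul h.bcB.conj_)
    · intro r hr
      have : (r : ℂ) ≠ 0 := by exact_mod_cast hr.1.ne'
      rw [Complex.real_smul]
      push_cast
      field_simp

/-- Integrated flux identity. -/
theorem intFlux :
    ∫ r in (0 : ℝ)..b, (M r * (VA r - VB r) * (A r * conj (B r)).re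
        + μ.re * (M r * (normSq (A r) + normSq (B r))))
      = M b * ((A1 b * conj (B b)).re - (B1 b * conj (A b)).re)
        - M b * X b / 2 * (normSq (A b) + normSq (B b)) := by
  refine ftc_zero (Φ := fun r => M r * ((A1 r * conj (B r)).re - (B1 r * conj (A r)).re)
        - M r * X r / 2 * (normSq (A r) + normSq (B r))) h.hb
    (fun r hr => (h.sys r hr).flux) ?_ ?_
  · refine BC.intble h.hb ?_
    refine BC.congr (h.bcMVAB.add ((BC.const μ.re).mul (h.bcMA.add h.bcMB))) ?_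
    intro r _
    ring
  · refine BC.vanish (ψ := fun r => M r / r ^ 2 * (((r : ℂ) * A1 r * conj (B r)).re
      - ((r : ℂ) * B1 r * conj (A r)).re)
      - (1 / 2) * (M r * (X r / r)) * (normSq (A r) + normSq (B r))) ?_ ?_
    · exact (h.bcM.mul ((h.bcA1.mul h.bcB.conj_).re.sub (h.bcB1.mul h.bcA.conj_).re)).sub
        (((BC.const (1 / 2 : ℝ)).mul (h.bcM0.mul h.bcX)).mul (h.bcA.normSq_.add h.bcB.normSq_))
    · intro r hr
      have hr' := hr.1.ne'
      have e1 : ((r : ℂ) * A1 r * conj (B r)).re = r * (A1 r * conj (B r)).re := by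
        rw [mul_assoc, Complex.re_ofReal_mul]
      have e2 : ((r : ℂ) * B1 r * conj (A r)).re = r * (B1 r * conj (A r)).re := by
        rw [mul_assoc, Complex.re_ofReal_mul]
      rw [e1, e2, smul_eq_mul]
      field_simp

/-- Integrated energy identity. -/
theorem intEnergy :
    ∫ r in (0 : ℝ)..b, (M r * ((μ.re + X' r) * (normSq (A1 r) + normSq (B1 r))
        + μ.re * (VA r * normSq (A r) + VB r * normSq (B r))
        - X r / 2 * (VA' r * normSq (A r) + VB' r * normSq (B r))))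
      = M b * X b / 2 * (normSq (A1 b) + normSq (B1 b)
          - VA b * normSq (A b) - VB b * normSq (B b))
        + M b * (conj (μ + c0) * (A1 b * conj (A b) + B1 b * conj (B b))).re := by
  refine ftc_zero (Φ := fun r => M r * X r / 2 * (normSq (A1 r) + normSq (B1 r)
          - VA r * normSq (A r) - VB r * normSq (B r))
        + M r * (conj (μ + c0) * (A1 r * conj (A r) + B1 r * conj (B r))).re) h.hb
    (fun r hr => (h.sys r hr).energy) ?_ ?_
  · refine BC.intble h.hb ?_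
    refine BC.congr ((((BC.const μ.re).mul (h.bcMA1.add h.bcMB1)).add
      (h.bcMX'A1.add h.bcMX'B1)).add (((BC.const μ.re).mul (h.bcMVA.add h.bcMVB)).add
      ((BC.const (-(1 / 2) : ℝ)).mul (h.bcMXVA'.add h.bcMXVB')))) ?_
    intro r _
    ring
  · refine BC.vanish (ψ := fun r => (1 / 2) * (M r / r ^ 2 * (X r / r)) *
      (normSq ((r : ℂ) * A1 r) + normSq ((r : ℂ) * B1 r)
        - r ^ 2 * VA r * normSq (A r) - r ^ 2 * VB r * normSq (B r))
      + M r / r ^ 2 * (conj (μ + c0) * ((r : ℂ) * A1 r * conj (A r)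
        + (r : ℂ) * B1 r * conj (B r))).re) ?_ ?_
    · refine BC.add (((BC.const (1 / 2 : ℝ)).mul (h.bcM.mul h.bcX)).mul ?_) ?_
      · exact ((h.bcA1.normSq_.add h.bcB1.normSq_).sub (h.bcVA.mul h.bcA.normSq_)).sub
          (h.bcVB.mul h.bcB.normSq_)
      · exact h.bcM.mul ((BC.const (conj (μ + c0))).mul ((h.bcA1.mul h.bcA.conj_).add
          (h.bcB1.mul h.bcB.conj_))).re
    · intro r hr
      have hr' := hr.1.ne'
      have e1 : (conj (μ + c0) * ((r : ℂ) * A1 r * conj (A r)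
        + (r : ℂ) * B1 r * conj (B r))).re
          = r * (conj (μ + c0) * (A1 r * conj (A r) + B1 r * conj (B r))).re := by
        rw [← Complex.re_ofReal_mul]
        congr 1
        ring
      rw [e1]
      simp only [map_mul, Complex.normSq_ofReal, smul_eq_mul]
      field_simp

end basic

end SysOn

end Vale.Agent.P139.H498
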