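import Mathlib

/-!
Pointwise identities for the radial linearised system in the gauge `f = Q (A + i B)`,
`g = conj Q (A - i B)`:

`(M A')'/M - VA A = (μ + D0) B`, `(M B')'/M - VB B = - (μ + D0) A`, `D0 u = X u' + c0 u`,
`(M X)' = 2 c0 M`.
-/

open Complex
open scoped ComplexConjugate

namespace Vale.Agent.P139.H498

/-- The radial system at the point `r`, with all derivatives as data. -/
structure SysAt (c0 : ℝ) (μ : ℂ) (M X VA VB : ℝ → ℝ) (A B A1 B1 : ℝ → ℂ) (r M' X' VA' VB' : ℝ)
    (A2 B2 : ℂ) : Prop where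
  hM : HasDerivAt M M' r
  hX : HasDerivAt X X' r
  hVA : HasDerivAt VA VA' r
  hVB : HasDerivAt VB VB' r
  hMX : M' * X r + M r * X' = 2 * c0 * M r
  hA : HasDerivAt A (A1 r) r
  hB : HasDerivAt B (B1 r) r
  hA1 : HasDerivAt A1 A2 r
  hB1 : HasDerivAt B1 B2 r
  eqA : (M r : ℂ) * A2 + M' * A1 r - M r * VA r * A r = M r * (μ * B r + X r * B1 r + c0 * B r)
  eqB : (M r : ℂ) * B2 + M' * B1 r - M r * VB r * B r = -(M r * (μ * A r + X r * A1 r + c0 * A r))

theorem hasDerivAt_re {f : ℝ → ℂ} {f' : ℂ} {r : ℝ} (h : HasDerivAt f f' r) :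
    HasDerivAt (fun x => (f x).re) f'.re r :=
  Complex.reCLM.hasFDerivAt.comp_hasDerivAt r h

theorem hasDerivAt_im {f : ℝ → ℂ} {f' : ℂ} {r : ℝ} (h : HasDerivAt f f' r) :
    HasDerivAt (fun x => (f x).im) f'.im r :=
  Complex.imCLM.hasFDerivAt.comp_hasDerivAt r h

theorem hasDerivAt_normSq {f : ℝ → ℂ} {f' : ℂ} {r : ℝ} (h : HasDerivAt f f' r) :
    HasDerivAt (fun x => normSq (f x)) (2 * (f' * conj (f r)).re) r := by
  have h1 := hasDerivAt_re h
  have h2 := hasDerivAt_im h
  have h3 := (h1.mul h1).add (h2.mul h2)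
  have h4 : (fun x => normSq (f x)) = fun x => (f x).re * (f x).re + (f x).im * (f x).im := by
    funext x; simp [Complex.normSq_apply]
  rw [h4]
  refine h3.congr_deriv ?_
  simp only [Complex.mul_re, Complex.conj_re, Complex.conj_im]
  ring

theorem hasDerivAt_conj {f : ℝ → ℂ} {f' : ℂ} {r : ℝ} (h : HasDerivAt f f' r) :
    HasDerivAt (fun x => conj (f x)) (conj f') r :=
  Complex.conjCLE.toContinuousLinearMap.hasFDerivAt.comp_hasDerivAt r h

theorem hasDerivAt_re_mul_conj {f g : ℝ → ℂ} {f' g' : ℂ} {r : ℝ} (hf : HasDerivAt f f' r)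
    (hg : HasDerivAt g g' r) :
    HasDerivAt (fun x => (f x * conj (g x)).re) ((f' * conj (g r)).re + (f r * conj g').re) r := by
  have h := hasDerivAt_re (hf.fun_mul (hasDerivAt_conj hg))
  refine h.congr_deriv ?_
  simp

/-- The Morawetz boundary functional. -/
noncomputable def morB (c0 : ℝ) (M X VA VB : ℝ → ℝ) (A B A1 B1 : ℝ → ℂ) (r : ℝ) : ℝ :=
  M r * X r * (-(normSq (A1 r) + normSq (B1 r)) / 2 + VA r / 2 * normSq (A r)
    + VB r / 2 * normSq (B r))
    - c0 * M r * ((A1 r * conj (A r)).re + (B1 r * conj (B r)).re)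

variable {c0 : ℝ} {μ : ℂ} {M X VA VB : ℝ → ℝ} {A B A1 B1 : ℝ → ℂ}
    {r M' X' VA' VB' : ℝ} {A2 B2 : ℂ}

/-- (I1) Morawetz identity. -/
theorem SysAt.morawetz (h : SysAt c0 μ M X VA VB A B A1 B1 r M' X' VA' VB' A2 B2) :
    HasDerivAt (morB c0 M X VA VB A B A1 B1)
      (-(M r * (X' * (normSq (A1 r) + normSq (B1 r)) - X r * VA' / 2 * normSq (A r)
        - X r * VB' / 2 * normSq (B r)))
        + M r * (μ * (A r * conj (X r * B1 r + c0 * B r)
          - B r * conj (X r * A1 r + c0 * A r))).re) r := by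
  have e1 := congrArg Complex.re h.eqA
  have e2 := congrArg Complex.im h.eqA
  have e3 := congrArg Complex.re h.eqB
  have e4 := congrArg Complex.im h.eqB
  have hMX := h.hMX
  simp only [Complex.add_re, Complex.mul_re, Complex.sub_re, Complex.neg_re, Complex.ofReal_re,
    Complex.ofReal_im, Complex.add_im, Complex.mul_im, Complex.sub_im, Complex.neg_im, zero_mul,
    sub_zero, add_zero, mul_zero] at e1 e2 e3 e4
  have key := ((h.hM.fun_mul h.hX).fun_mul ((((hasDerivAt_normSq h.hA1).fun_add
      (hasDerivAt_normSq h.hB1)).fun_neg.div_const 2).fun_add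
      ((h.hVA.div_const 2).fun_mul (hasDerivAt_normSq h.hA)) |>.fun_add
      ((h.hVB.div_const 2).fun_mul (hasDerivAt_normSq h.hB)))).fun_sub
      ((h.hM.const_mul c0).fun_mul ((hasDerivAt_re_mul_conj h.hA1 h.hA).fun_add
        (hasDerivAt_re_mul_conj h.hB1 h.hB)))
  refine key.congr_deriv ?_
  simp only [Complex.normSq_apply, Complex.add_re, Complex.mul_re, Complex.sub_re,
    Complex.ofReal_re, Complex.conj_re, Complex.conj_im, map_add, map_mul, Complex.conj_ofReal,
    Complex.ofReal_im, Complex.add_im, Complex.mul_im, Complex.sub_im]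
  linear_combination (exp := 1) (-(X r * (A1 r).re + c0 * (A r).re)) * e1
    - (X r * (A1 r).im + c0 * (A r).im) * e2
    - (X r * (B1 r).re + c0 * (B r).re) * e3
    - (X r * (B1 r).im + c0 * (B r).im) * e4
    + (((A1 r).re * (A1 r).re + (A1 r).im * (A1 r).im + (B1 r).re * (B1 r).re
      + (B1 r).im * (B1 r).im) / 2 + VA r / 2 * ((A r).re * (A r).re + (A r).im * (A r).im)
      + VB r / 2 * ((B r).re * (B r).re + (B r).im * (B r).im)) * hMX

/-- Skewness of `D0` with the weight `M`. -/
theorem SysAt.skew (h : SysAt c0 μ M X VA VB A B A1 B1 r M' X' VA' VB' A2 B2) :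
    HasDerivAt (fun r => ((M r * X r : ℝ) : ℂ) * (B r * conj (A r)))
      (M r * ((X r * B1 r + c0 * B r) * conj (A r) + B r * conj (X r * A1 r + c0 * A r))) r := by
  have h1 := (h.hM.fun_mul h.hX).ofReal_comp.fun_mul (h.hB.fun_mul (hasDerivAt_conj h.hA))
  refine h1.congr_deriv ?_
  have hMX : ((M' * X r + M r * X' : ℝ) : ℂ) = ((2 * c0 * M r : ℝ) : ℂ) := by rw [h.hMX]
  push_cast at hMX ⊢
  simp only [map_add, map_mul, Complex.conj_ofReal]
  linear_combination (B r * conj (A r)) * hMX

/-- The bulk cross term of the Morawetz identity. -/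
theorem SysAt.cross (h : SysAt c0 μ M X VA VB A B A1 B1 r M' X' VA' VB' A2 B2) :
    HasDerivAt (fun r => M r * X r * (μ * (B r * conj (A r))).re)
      (2 * μ.re * (M r * (A r * conj (X r * B1 r + c0 * B r)).re)
        - M r * (μ * (A r * conj (X r * B1 r + c0 * B r)
          - B r * conj (X r * A1 r + c0 * A r))).re) r := by
  have h1 := hasDerivAt_re (h.skew.const_mul μ)
  have h2 : (fun r => M r * X r * (μ * (B r * conj (A r))).re)
      = fun r => (μ * (((M r * X r : ℝ) : ℂ) * (B r * conj (A r)))).re := by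
    funext x
    rw [show μ * (((M x * X x : ℝ) : ℂ) * (B x * conj (A x)))
      = ((M x * X x : ℝ) : ℂ) * (μ * (B x * conj (A x))) by ring, Complex.re_ofReal_mul]
  rw [h2]
  refine h1.congr_deriv ?_
  simp only [Complex.add_re, Complex.mul_re, Complex.sub_re,
    Complex.ofReal_re, Complex.conj_re, Complex.conj_im, map_add, map_mul, Complex.conj_ofReal,
    Complex.ofReal_im, Complex.add_im, Complex.mul_im, Complex.sub_im]
  ring

/-- (I1') Morawetz identity with the cross term integrated by parts: the imaginary part of the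
spectral parameter only occurs in the boundary term. -/
theorem SysAt.morawetz' (h : SysAt c0 μ M X VA VB A B A1 B1 r M' X' VA' VB' A2 B2) :
    HasDerivAt (fun r => morB c0 M X VA VB A B A1 B1 r + M r * X r * (μ * (B r * conj (A r))).re)
      (-(M r * (X' * (normSq (A1 r) + normSq (B1 r)) - X r * VA' / 2 * normSq (A r)
        - X r * VB' / 2 * normSq (B r)))
        + 2 * μ.re * (M r * (A r * conj (X r * B1 r + c0 * B r)).re)) r := by
  refine (h.morawetz.fun_add h.cross).congr_deriv ?_
  ring

/-- (I3a) pairing of the first equation with `A`. -/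
theorem SysAt.pairA (h : SysAt c0 μ M X VA VB A B A1 B1 r M' X' VA' VB' A2 B2) :
    HasDerivAt (fun r => (M r : ℂ) * (A1 r * conj (A r)))
      (M r * (((normSq (A1 r) + VA r * normSq (A r) : ℝ) : ℂ)
        + (μ * B r + X r * B1 r + c0 * B r) * conj (A r))) r := by
  have h1 := h.hM.ofReal_comp.fun_mul (h.hA1.fun_mul (hasDerivAt_conj h.hA))
  refine h1.congr_deriv ?_
  have e := h.eqA
  push_cast
  rw [Complex.normSq_eq_conj_mul_self, Complex.normSq_eq_conj_mul_self]
  linear_combination (conj (A r)) * e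

/-- (I3b) pairing of the second equation with `B`. -/
theorem SysAt.pairB (h : SysAt c0 μ M X VA VB A B A1 B1 r M' X' VA' VB' A2 B2) :
    HasDerivAt (fun r => (M r : ℂ) * (B1 r * conj (B r)))
      (M r * (((normSq (B1 r) + VB r * normSq (B r) : ℝ) : ℂ)
        - (μ * A r + X r * A1 r + c0 * A r) * conj (B r))) r := by
  have h1 := h.hM.ofReal_comp.fun_mul (h.hB1.fun_mul (hasDerivAt_conj h.hB))
  refine h1.congr_deriv ?_
  have e := h.eqB
  push_cast
  rw [Complex.normSq_eq_conj_mul_self, Complex.normSq_eq_conj_mul_self]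
  linear_combination (conj (B r)) * e

/-- (I2) the mass flux. -/
theorem SysAt.flux (h : SysAt c0 μ M X VA VB A B A1 B1 r M' X' VA' VB' A2 B2) :
    HasDerivAt (fun r => M r * ((A1 r * conj (B r)).re - (B1 r * conj (A r)).re)
        - M r * X r / 2 * (normSq (A r) + normSq (B r)))
      (M r * (VA r - VB r) * (A r * conj (B r)).re
        + μ.re * (M r * (normSq (A r) + normSq (B r)))) r := by
  have key := (h.hM.fun_mul ((hasDerivAt_re_mul_conj h.hA1 h.hB).fun_sub
    (hasDerivAt_re_mul_conj h.hB1 h.hA))).fun_sub (((h.hM.fun_mul h.hX).div_const 2).fun_mul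
      ((hasDerivAt_normSq h.hA).fun_add (hasDerivAt_normSq h.hB)))
  refine key.congr_deriv ?_
  have e1 := congrArg Complex.re h.eqA
  have e2 := congrArg Complex.im h.eqA
  have e3 := congrArg Complex.re h.eqB
  have e4 := congrArg Complex.im h.eqB
  have hMX := h.hMX
  simp only [Complex.add_re, Complex.mul_re, Complex.sub_re, Complex.neg_re, Complex.ofReal_re,
    Complex.ofReal_im, Complex.add_im, Complex.mul_im, Complex.sub_im, Complex.neg_im, zero_mul,
    sub_zero, add_zero, mul_zero] at e1 e2 e3 e4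
  simp only [Complex.normSq_apply, Complex.mul_re, Complex.conj_re, Complex.conj_im]
  linear_combination (exp := 1) (B r).re * e1 + (B r).im * e2 - (A r).re * e3 - (A r).im * e4
    - ((A r).re * (A r).re + (A r).im * (A r).im + (B r).re * (B r).re + (B r).im * (B r).im) / 2
      * hMX

/-- (I4) the energy identity (multipliers `conj (λ A + X A')`, `conj (λ B + X B')`,
`λ = μ + c0`). -/
theorem SysAt.energy (h : SysAt c0 μ M X VA VB A B A1 B1 r M' X' VA' VB' A2 B2) :
    HasDerivAt (fun r => M r * X r / 2 * (normSq (A1 r) + normSq (B1 r)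
          - VA r * normSq (A r) - VB r * normSq (B r))
        + M r * (conj (μ + c0) * (A1 r * conj (A r) + B1 r * conj (B r))).re)
      (M r * ((μ.re + X') * (normSq (A1 r) + normSq (B1 r))
        + μ.re * (VA r * normSq (A r) + VB r * normSq (B r))
        - X r / 2 * (VA' * normSq (A r) + VB' * normSq (B r)))) r := by
  have h1 := h.morawetz
  have h2 := hasDerivAt_re ((h.pairA.fun_add h.pairB).const_mul (conj μ))
  have key := (h2.fun_sub h1)
  have hfun : (fun r => M r * X r / 2 * (normSq (A1 r) + normSq (B1 r)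
          - VA r * normSq (A r) - VB r * normSq (B r))
        + M r * (conj (μ + c0) * (A1 r * conj (A r) + B1 r * conj (B r))).re)
      = fun x => (conj μ * (M x * (A1 x * conj (A x)) + M x * (B1 x * conj (B x)))).re
        - morB c0 M X VA VB A B A1 B1 x := by
    funext x
    simp only [morB, Complex.normSq_apply, Complex.add_re, Complex.mul_re,
      Complex.ofReal_re, Complex.conj_re, Complex.conj_im, map_add, Complex.conj_ofReal,
      Complex.ofReal_im, Complex.add_im, Complex.mul_im]
    ring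
  rw [hfun]
  refine key.congr_deriv ?_
  simp only [Complex.normSq_apply, Complex.add_re, Complex.mul_re, Complex.sub_re,
    Complex.ofReal_re, Complex.conj_re, Complex.conj_im, map_add, map_mul, Complex.conj_ofReal,
    Complex.ofReal_im, Complex.add_im, Complex.mul_im, Complex.sub_im]
  ring

end Vale.Agent.P139.H498
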