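import Vale.Agent.P139.H498.Int1

/-!
Regularity at the origin and the integrated identities on `(0, b]`.
-/

open Complex Set MeasureTheory Filter Topology
open scoped ComplexConjugate

namespace Vale.Agent.P139.H498

/-- A solution of a second order system which is bounded near `0` satisfies `u' = O(1/r)`. -/
theorem reg_zero {E : Type*} [NormedAddCommGroup E] [NormedSpace ℝ E] {u u1 u2 : ℝ → E}
    {b C0 C1 C2 : ℝ} (hb : 0 < b) (h1 : ∀ r ∈ Ioc 0 b, HasDerivAt u (u1 r) r)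
    (h2 : ∀ r ∈ Ioc 0 b, HasDerivAt u1 (u2 r) r) (h0 : ∀ r ∈ Ioc 0 b, ‖u r‖ ≤ C0)
    (h3 : ∀ r ∈ Ioc 0 b, ‖u2 r‖ ≤ C1 * ‖u1 r‖ / r + C2 / r ^ 2) (hC1 : 0 ≤ C1) (hC2 : 0 ≤ C2) :
    ∀ r ∈ Ioc 0 b, r * ‖u1 r‖ ≤ 4 * C0 / (1 / (8 * (C1 + 1))) + 4 * C2 := by
  set δ : ℝ := 1 / (8 * (C1 + 1)) with hδ
  have hδ0 : 0 < δ := by positivity
  have hδ1 : δ ≤ 1 / 8 := by
    rw [hδ]
    apply one_div_le_one_div_of_le (by norm_num)
    linarith
  have hδC : 4 * δ * C1 ≤ 1 / 2 := by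
    have : 8 * (C1 + 1) * δ = 1 := by rw [hδ]; field_simp
    nlinarith
  have hC0 : 0 ≤ C0 := le_trans (norm_nonneg _) (h0 b ⟨hb, le_rfl⟩)
  -- the claim on `[ε, b]`
  have main : ∀ ε, 0 < ε → ε ≤ b / 4 → ∀ r ∈ Icc ε b, r * ‖u1 r‖ ≤ 4 * C0 / δ + 4 * C2 := by
    intro ε hε hεb
    have hne : (Icc ε b).Nonempty := ⟨b, ⟨by linarith, le_rfl⟩⟩
    have hcont : ContinuousOn (fun r => r * ‖u1 r‖) (Icc ε b) := by
      refine continuousOn_id.mul (ContinuousOn.norm fun r hr => ?_)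
      exact (h2 r ⟨lt_of_lt_of_le hε hr.1, hr.2⟩).continuousAt.continuousWithinAt
    obtain ⟨s, hs, hmax⟩ := isCompact_Icc.exists_isMaxOn hne hcont
    intro r hr
    refine (hmax hr).trans ?_
    set K : ℝ := s * ‖u1 s‖ with hK
    have hs0 : 0 < s := lt_of_lt_of_le hε hs.1
    have hK0 : 0 ≤ K := by positivity
    have hKle : ∀ t ∈ Icc ε b, t * ‖u1 t‖ ≤ K := fun t ht => hmax ht
    -- choose a direction
    obtain ⟨h, hh, hsub⟩ : ∃ h : ℝ, |h| = δ * s ∧ uIcc s (s + h) ⊆ Icc ε b := by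
      by_cases hsb : s ≤ b / 2
      · refine ⟨δ * s, abs_of_pos (by positivity), ?_⟩
        rw [uIcc_of_le (by nlinarith)]
        exact Icc_subset_Icc hs.1 (by nlinarith)
      · refine ⟨-(δ * s), by rw [abs_neg, abs_of_pos (by positivity)], ?_⟩
        rw [uIcc_of_ge (by nlinarith)]
        exact Icc_subset_Icc (by nlinarith) hs.2
    have hJ : ∀ t ∈ uIcc s (s + h), s / 2 ≤ t := by
      intro t ht
      have := abs_sub_left_of_mem_uIcc ht
      have h5 : |t - s| ≤ δ * s := by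
        rw [← hh]
        simpa using this
      have := (abs_le.mp h5).1
      nlinarith
    have hu2 : ∀ t ∈ uIcc s (s + h), ‖u2 t‖ ≤ 4 * (C1 * K + C2) / s ^ 2 := by
      intro t ht
      have ht' := hsub ht
      have ht0 : 0 < t := lt_of_lt_of_le hε ht'.1
      have hts := hJ t ht
      have e1 := h3 t ⟨ht0, ht'.2⟩
      have e2 : C1 * ‖u1 t‖ / t + C2 / t ^ 2 = (C1 * (t * ‖u1 t‖) + C2) / t ^ 2 := by
        field_simp
      rw [e2] at e1
      refine e1.trans ?_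
      have e3 : C1 * (t * ‖u1 t‖) + C2 ≤ C1 * K + C2 := by
        have := mul_le_mul_of_nonneg_left (hKle t ht') hC1
        linarith
      have e4 : s ^ 2 ≤ 4 * t ^ 2 := by nlinarith
      rw [div_le_div_iff₀ (by positivity) (by positivity)]
      have e5 : 0 ≤ C1 * K + C2 := by positivity
      nlinarith [mul_le_mul_of_nonneg_left e4 e5, mul_le_mul_of_nonneg_right e3 (sq_nonneg s)]
    have hu1 : ∀ t ∈ uIcc s (s + h), ‖u1 t - u1 s‖ ≤ 4 * (C1 * K + C2) / s ^ 2 * (δ * s) := by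
      intro t ht
      have e := (convex_uIcc s (s + h)).norm_image_sub_le_of_norm_hasDerivWithin_le
        (f := u1) (f' := u2) (C := 4 * (C1 * K + C2) / s ^ 2)
        (fun x hx => (h2 x ⟨lt_of_lt_of_le hε (hsub hx).1, (hsub hx).2⟩).hasDerivWithinAt)
        hu2 left_mem_uIcc ht
      refine e.trans (mul_le_mul_of_nonneg_left ?_ (by positivity))
      have := abs_sub_left_of_mem_uIcc ht
      rw [Real.norm_eq_abs, ← hh]
      simpa using this
    have hu : ‖u (s + h) - u s - h • u1 s‖ ≤ 4 * (C1 * K + C2) / s ^ 2 * (δ * s) * (δ * s) := by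
      have e := (convex_uIcc s (s + h)).norm_image_sub_le_of_norm_hasDerivWithin_le
        (f := fun t => u t - t • u1 s) (f' := fun t => u1 t - u1 s)
        (C := 4 * (C1 * K + C2) / s ^ 2 * (δ * s))
        (fun x hx => by
          have e1 := (h1 x ⟨lt_of_lt_of_le hε (hsub hx).1, (hsub hx).2⟩).hasDerivWithinAt
            (s := uIcc s (s + h))
          have e2 : HasDerivWithinAt (fun t : ℝ => t • u1 s) (u1 s) (uIcc s (s + h)) x := by
            simpa using (hasDerivWithinAt_id x (uIcc s (s + h))).smul_const (u1 s)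
          exact e1.sub e2)
        hu1 left_mem_uIcc right_mem_uIcc
      have e3 : u (s + h) - (s + h) • u1 s - (u s - s • u1 s)
          = u (s + h) - u s - h • u1 s := by
        rw [add_smul]; abel
      rw [e3] at e
      refine e.trans (le_of_eq ?_)
      rw [Real.norm_eq_abs, add_sub_cancel_left, hh]
    have hus : ‖u s‖ ≤ C0 := h0 s ⟨hs0, hs.2⟩
    have hush : ‖u (s + h)‖ ≤ C0 := by
      have := hsub right_mem_uIcc
      exact h0 _ ⟨lt_of_lt_of_le hε this.1, this.2⟩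
    have h6 : δ * s * ‖u1 s‖ ≤ 2 * C0 + 4 * (C1 * K + C2) / s ^ 2 * (δ * s) * (δ * s) := by
      have e1 : ‖h • u1 s‖ = δ * s * ‖u1 s‖ := by rw [norm_smul, Real.norm_eq_abs, hh]
      rw [← e1]
      have e2 : h • u1 s = (u (s + h) - u s) - (u (s + h) - u s - h • u1 s) := by abel
      rw [e2]
      refine (norm_sub_le _ _).trans (add_le_add ?_ hu)
      refine (norm_sub_le _ _).trans (by linarith)
    have h7 : 4 * (C1 * K + C2) / s ^ 2 * (δ * s) * (δ * s) = δ * (4 * δ * (C1 * K + C2)) := by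
      field_simp
    rw [h7] at h6
    have h8 : δ * K ≤ 2 * C0 + δ * (4 * δ * (C1 * K + C2)) := by
      rw [hK]; rw [hK] at h6; nlinarith
    have h9 : 4 * δ * (C1 * K + C2) ≤ K / 2 + C2 / 2 := by
      have : 4 * δ * C2 ≤ C2 / 2 := by nlinarith
      nlinarith
    have h10 : δ * K ≤ 4 * C0 + δ * C2 := by nlinarith
    have h11 : K ≤ 4 * C0 / δ + C2 := by
      rw [div_add' _ _ _ hδ0.ne', le_div_iff₀ hδ0]
      nlinarith
    linarith
  intro r hr
  exact main (min r (b / 4)) (lt_min hr.1 (by linarith)) (min_le_right _ _) r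
    ⟨min_le_left _ _, hr.2⟩

/-- Bounded and continuous on `(0,b]` implies integrable. -/
theorem intble_of_bdd {E : Type*} [NormedAddCommGroup E] [NormedSpace ℝ E] {φ : ℝ → E} {b : ℝ}
    (hb : 0 < b) (hc : ContinuousOn φ (Ioc 0 b)) (hbd : ∃ C, ∀ r ∈ Ioc 0 b, ‖φ r‖ ≤ C) :
    IntervalIntegrable φ volume 0 b := by
  obtain ⟨C, hC⟩ := hbd
  rw [intervalIntegrable_iff_integrableOn_Ioc_of_le hb.le]
  have : IsFiniteMeasure (volume.restrict (Ioc (0 : ℝ) b)) := ⟨by simp⟩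
  exact (integrable_const C).mono' (hc.aestronglyMeasurable measurableSet_Ioc)
    ((ae_restrict_iff' measurableSet_Ioc).mpr (Eventually.of_forall hC))

/-- Fundamental theorem of calculus on `(0,b]` with vanishing boundary value at `0`. -/
theorem ftc_zero {E : Type*} [NormedAddCommGroup E] [NormedSpace ℝ E] [CompleteSpace E]
    {Φ φ : ℝ → E} {b : ℝ} (hb : 0 < b)
    (h : ∀ r ∈ Ioc 0 b, HasDerivAt Φ (φ r) r) (hi : IntervalIntegrable φ volume 0 b)
    (h0 : ∃ C, ∀ r ∈ Ioc 0 b, ‖Φ r‖ ≤ C * r) :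
    ∫ r in (0 : ℝ)..b, φ r = Φ b := by
  obtain ⟨C, hC⟩ := h0
  have ht0 : Tendsto Φ (𝓝[>] 0) (𝓝 0) := by
    rw [tendsto_zero_iff_norm_tendsto_zero]
    refine squeeze_zero' (Eventually.of_forall fun _ => norm_nonneg _)
      (g := fun r => C * r) ?_ ?_
    · filter_upwards [Ioc_mem_nhdsGT hb] with r hr using hC r hr
    · have : Tendsto (fun r : ℝ => C * r) (𝓝 0) (𝓝 (C * 0)) := tendsto_id.const_mul C
      rw [mul_zero] at this
      exact this.mono_left nhdsWithin_le_nhds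
  have htb : Tendsto Φ (𝓝[<] b) (𝓝 (Φ b)) :=
    ((h b ⟨hb, le_rfl⟩).continuousAt.tendsto).mono_left nhdsWithin_le_nhds
  have := intervalIntegral.integral_eq_sub_of_hasDerivAt_of_tendsto hb
    (fun x hx => h x ⟨hx.1, hx.2.le⟩) hi ht0 htb
  rw [this, sub_zero]

end Vale.Agent.P139.H498
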