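import Vale.Agent.P139.H498.Int4

/-!
Poincare inequality and the thin layer estimate.
-/

open Complex Set MeasureTheory Filter Topology
open scoped ComplexConjugate

namespace Vale.Agent.P139.H498

/-- Cauchy-Schwarz on an interval. -/
theorem cs_interval {f : ℝ → ℝ} {s r : ℝ} (hsr : s ≤ r) (hf : IntervalIntegrable f volume s r)
    (hf2 : IntervalIntegrable (fun x => f x ^ 2) volume s r) :
    (∫ x in s..r, f x) ^ 2 ≤ (r - s) * ∫ x in s..r, f x ^ 2 := by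
  rcases hsr.eq_or_lt with rfl | hlt
  · simp
  set m : ℝ := (∫ x in s..r, f x) / (r - s) with hm
  have hpos : 0 < r - s := by linarith
  have h0 : 0 ≤ ∫ x in s..r, (f x - m) ^ 2 :=
    intervalIntegral.integral_nonneg hsr fun x _ => sq_nonneg _
  have h1 : ∫ x in s..r, (f x - m) ^ 2
      = (∫ x in s..r, f x ^ 2) - 2 * m * (∫ x in s..r, f x) + m ^ 2 * (r - s) := by
    have e : (fun x => (f x - m) ^ 2) = fun x => (f x ^ 2 - 2 * m * f x) + m ^ 2 := by
      funext x; ring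
    rw [e, intervalIntegral.integral_add (hf2.sub (hf.const_mul _)) (by simp),
      intervalIntegral.integral_sub hf2 (hf.const_mul _), intervalIntegral.integral_const_mul,
      intervalIntegral.integral_const, smul_eq_mul]
    ring
  rw [h1] at h0
  have h2 : (∫ x in s..r, f x) = m * (r - s) := by rw [hm]; field_simp
  rw [h2] at h0 ⊢
  nlinarith

/-- The increment of `u` in terms of the `L²` norm of the derivative. -/
theorem norm_sq_le {u u1 : ℝ → ℂ} {s r a b : ℝ} (has : a ≤ s) (hsr : s ≤ r) (hrb : r ≤ b)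
    (hu : ∀ x ∈ Icc a b, HasDerivAt u (u1 x) x) (hc : ContinuousOn u1 (Icc a b)) :
    ‖u r‖ ^ 2 ≤ 2 * ‖u s‖ ^ 2 + 2 * (b - a) * ∫ x in a..b, ‖u1 x‖ ^ 2 := by
  have hsub : uIcc s r ⊆ Icc a b := by
    rw [uIcc_of_le hsr]; exact Icc_subset_Icc has hrb
  have hc' : ContinuousOn u1 (uIcc s r) := hc.mono hsub
  have hi : IntervalIntegrable u1 volume s r := hc'.intervalIntegrable
  have hin : IntervalIntegrable (fun x => ‖u1 x‖) volume s r := hc'.norm.intervalIntegrable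
  have hi2 : IntervalIntegrable (fun x => ‖u1 x‖ ^ 2) volume s r :=
    (hc'.norm.pow 2).intervalIntegrable
  have hab : a ≤ b := has.trans (hsr.trans hrb)
  have hI2 : IntervalIntegrable (fun x => ‖u1 x‖ ^ 2) volume a b := by
    refine ContinuousOn.intervalIntegrable ?_
    rw [uIcc_of_le hab]
    exact hc.norm.pow 2
  have e1 : u r - u s = ∫ x in s..r, u1 x :=
    (intervalIntegral.integral_eq_sub_of_hasDerivAt (fun x hx => hu x (hsub hx)) hi).symm
  have e2 : ‖u r - u s‖ ≤ ∫ x in s..r, ‖u1 x‖ := by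
    rw [e1]; exact intervalIntegral.norm_integral_le_integral_norm hsr
  have e3 : ‖u r - u s‖ ^ 2 ≤ (r - s) * ∫ x in s..r, ‖u1 x‖ ^ 2 :=
    (pow_le_pow_left₀ (norm_nonneg _) e2 2).trans (cs_interval hsr hin hi2)
  have e4 : ∫ x in s..r, ‖u1 x‖ ^ 2 ≤ ∫ x in a..b, ‖u1 x‖ ^ 2 :=
    intervalIntegral.integral_mono_interval has hsr hrb
      (Eventually.of_forall fun x => sq_nonneg _) hI2
  have e5 : 0 ≤ ∫ x in a..b, ‖u1 x‖ ^ 2 :=
    intervalIntegral.integral_nonneg hab fun x _ => sq_nonneg _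
  have e6 : (r - s) * ∫ x in s..r, ‖u1 x‖ ^ 2 ≤ (b - a) * ∫ x in a..b, ‖u1 x‖ ^ 2 := by
    refine mul_le_mul (by linarith) e4 ?_ (by linarith)
    exact intervalIntegral.integral_nonneg hsr fun x _ => sq_nonneg _
  have e7 : ‖u r‖ ≤ ‖u s‖ + ‖u r - u s‖ := by
    have := norm_add_le (u s) (u r - u s)
    rwa [add_sub_cancel] at this
  have e8 : ‖u r‖ ^ 2 ≤ 2 * ‖u s‖ ^ 2 + 2 * ‖u r - u s‖ ^ 2 := by
    nlinarith [norm_nonneg (u r), norm_nonneg (u s), norm_nonneg (u r - u s),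
      sq_nonneg (‖u s‖ - ‖u r - u s‖)]
  linarith

/-- Thin layer estimate: the mass on `[r0,b]` is controlled by the mass on `[s0,r0]` and by the
derivative, with a factor proportional to the thickness `b - r0`. -/
theorem thin_layer {u u1 : ℝ → ℂ} {M : ℝ → ℝ} {s0 r0 b m1 m2 : ℝ} (hs : s0 < r0) (hr : r0 ≤ b)
    (hm1 : 0 < m1) (hM : ∀ x ∈ Icc s0 b, m1 ≤ M x ∧ M x ≤ m2) (hMc : ContinuousOn M (Icc s0 b))
    (hu : ∀ x ∈ Icc s0 b, HasDerivAt u (u1 x) x) (hc : ContinuousOn u1 (Icc s0 b)) :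
    ∫ x in r0..b, M x * ‖u x‖ ^ 2 ≤ (b - r0) * (m2 / m1) *
      (2 / (r0 - s0) * (∫ x in s0..r0, M x * ‖u x‖ ^ 2)
        + 2 * (b - s0) * ∫ x in s0..b, M x * ‖u1 x‖ ^ 2) := by
  have hsb : s0 ≤ b := hs.le.trans hr
  have huc : ContinuousOn u (Icc s0 b) := fun x hx => (hu x hx).continuousAt.continuousWithinAt
  set K : ℝ := ∫ x in s0..b, ‖u1 x‖ ^ 2 with hK
  have hK0 : 0 ≤ K := intervalIntegral.integral_nonneg hsb fun x _ => sq_nonneg _
  have hMK : m1 * K ≤ ∫ x in s0..b, M x * ‖u1 x‖ ^ 2 := by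
    rw [hK, ← intervalIntegral.integral_const_mul]
    refine intervalIntegral.integral_mono_on hsb ?_ ?_ ?_
    · refine ContinuousOn.intervalIntegrable ?_
      rw [uIcc_of_le hsb]
      exact continuousOn_const.mul (hc.norm.pow 2)
    · refine ContinuousOn.intervalIntegrable ?_
      rw [uIcc_of_le hsb]
      exact hMc.mul (hc.norm.pow 2)
    · intro x hx
      exact mul_le_mul_of_nonneg_right (hM x hx).1 (sq_nonneg _)
  have hm12 : m1 ≤ m2 := (hM b ⟨hsb, le_rfl⟩).1.trans (hM b ⟨hsb, le_rfl⟩).2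
  have hJ : IntervalIntegrable (fun x => M x * ‖u x‖ ^ 2) volume s0 r0 := by
    refine ContinuousOn.intervalIntegrable ?_
    rw [uIcc_of_le hs.le]
    exact (hMc.mul (huc.norm.pow 2)).mono (Icc_subset_Icc le_rfl hr)
  -- pointwise bound
  have hpt : ∀ r ∈ Icc r0 b, (r0 - s0) * (m1 * ‖u r‖ ^ 2)
      ≤ 2 * (∫ x in s0..r0, M x * ‖u x‖ ^ 2) + (r0 - s0) * (2 * (b - s0) * (m1 * K)) := by
    intro r hrr
    have h1 : ∀ s ∈ Icc s0 r0, m1 * ‖u r‖ ^ 2 ≤ 2 * (M s * ‖u s‖ ^ 2)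
        + 2 * (b - s0) * (m1 * K) := by
      intro s hss
      have e1 := norm_sq_le (u := u) (u1 := u1) (s := s) (r := r) (a := s0) (b := b) hss.1
        (hss.2.trans hrr.1) hrr.2 hu hc
      have e2 := (hM s ⟨hss.1, hss.2.trans hr⟩).1
      have e3 : m1 * ‖u s‖ ^ 2 ≤ M s * ‖u s‖ ^ 2 := mul_le_mul_of_nonneg_right e2 (sq_nonneg _)
      have e4 := mul_le_mul_of_nonneg_left e1 hm1.le
      rw [← hK] at e4
      nlinarith
    have h2 : ∫ _ in s0..r0, (m1 * ‖u r‖ ^ 2)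
        ≤ ∫ s in s0..r0, (2 * (M s * ‖u s‖ ^ 2) + 2 * (b - s0) * (m1 * K)) := by
      refine intervalIntegral.integral_mono_on hs.le (by simp) ?_ h1
      exact (hJ.const_mul 2).add (by simp)
    rw [intervalIntegral.integral_const, intervalIntegral.integral_add (hJ.const_mul 2) (by simp),
      intervalIntegral.integral_const_mul, intervalIntegral.integral_const, smul_eq_mul,
      smul_eq_mul] at h2
    exact h2
  set JJ : ℝ := ∫ x in s0..r0, M x * ‖u x‖ ^ 2 with hJJ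
  have hJJ0 : 0 ≤ JJ := intervalIntegral.integral_nonneg hs.le fun x hx =>
    mul_nonneg (hm1.le.trans (hM x ⟨hx.1, hx.2.trans hr⟩).1) (sq_nonneg _)
  have hrs : 0 < r0 - s0 := by linarith
  have hpt2 : ∀ r ∈ Icc r0 b, M r * ‖u r‖ ^ 2
      ≤ (m2 / m1) * (2 / (r0 - s0) * JJ + 2 * (b - s0) * (m1 * K)) := by
    intro r hrr
    have e1 := hpt r hrr
    have e2 : ‖u r‖ ^ 2 ≤ (2 / (r0 - s0) * JJ + 2 * (b - s0) * (m1 * K)) / m1 := by
      rw [le_div_iff₀ hm1]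
      have : (r0 - s0) * (‖u r‖ ^ 2 * m1) ≤ (r0 - s0) * (2 / (r0 - s0) * JJ
          + 2 * (b - s0) * (m1 * K)) := by
        have e3 : (r0 - s0) * (2 / (r0 - s0) * JJ + 2 * (b - s0) * (m1 * K))
            = 2 * JJ + (r0 - s0) * (2 * (b - s0) * (m1 * K)) := by
          field_simp
        rw [e3]; linarith
      exact le_of_mul_le_mul_left this hrs
    have e4 := (hM r ⟨hs.le.trans hrr.1, hrr.2⟩).2
    calc M r * ‖u r‖ ^ 2 ≤ m2 * ((2 / (r0 - s0) * JJ + 2 * (b - s0) * (m1 * K)) / m1) :=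
          mul_le_mul e4 e2 (sq_nonneg _) (hm1.le.trans hm12)
      _ = _ := by field_simp
  have h3 : ∫ x in r0..b, M x * ‖u x‖ ^ 2
      ≤ ∫ _ in r0..b, (m2 / m1) * (2 / (r0 - s0) * JJ + 2 * (b - s0) * (m1 * K)) := by
    refine intervalIntegral.integral_mono_on hr ?_ (by simp) hpt2
    refine ContinuousOn.intervalIntegrable ?_
    rw [uIcc_of_le hr]
    exact (hMc.mul (huc.norm.pow 2)).mono (Icc_subset_Icc hs.le le_rfl)
  rw [intervalIntegral.integral_const, smul_eq_mul] at h3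
  have hfac : 0 ≤ (b - r0) * (m2 / m1) :=
    mul_nonneg (by linarith) (div_nonneg (hm1.le.trans hm12) hm1.le)
  have h4 : 0 ≤ 2 * (b - s0) := by linarith
  have h5 : 2 / (r0 - s0) * JJ + 2 * (b - s0) * (m1 * K)
      ≤ 2 / (r0 - s0) * JJ + 2 * (b - s0) * ∫ x in s0..b, M x * ‖u1 x‖ ^ 2 := by
    have := mul_le_mul_of_nonneg_left hMK h4
    linarith
  have h6 := mul_le_mul_of_nonneg_left h5 hfac
  linarith

namespace SysOn

variable {c0 : ℝ} {μ : ℂ} {M X VA VB M' X' VA' VB' : ℝ → ℝ} {A B A1 B1 A2 B2 : ℝ → ℂ} {b : ℝ}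

/-- Poincare inequality with the exact weight: `c0 ∫ M|u|² ≤ M X |u|²(b) + (Xm²/c0) ∫ M |u'|²`. -/
theorem poincare_aux (h : SysOn c0 μ M X VA VB M' X' VA' VB' A B A1 B1 A2 B2 b) (hc0 : 0 < c0)
    {Xm : ℝ} (hX : ∀ r ∈ Ioc 0 b, |X r| ≤ Xm) {u u1 : ℝ → ℂ} (bu : BC b u)
    (bu1 : BC b (fun r => (r : ℂ) * u1 r)) (hu : ∀ r ∈ Ioc 0 b, HasDerivAt u (u1 r) r)
    (bMu1 : BC b (fun r => M r * normSq (u1 r))) :
    c0 * (∫ r in (0 : ℝ)..b, M r * normSq (u r)) ≤ M b * X b * normSq (u b)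
      + Xm ^ 2 / c0 * ∫ r in (0 : ℝ)..b, M r * normSq (u1 r) := by
  have hb := h.hb
  have bMu : BC b (fun r => M r * normSq (u r)) := h.bcM0.mul bu.normSq_
  have bcr : BC b (fun r => M r * X r * (2 * (u1 r * conj (u r)).re)) := by
    refine BC.congr (((BC.const (2 : ℝ)).mul (h.bcM0.mul h.bcX)).mul (bu1.mul bu.conj_).re) ?_
    intro r hr
    have hr' := hr.1.ne'
    have e1 : ((r : ℂ) * u1 r * conj (u r)).re = r * (u1 r * conj (u r)).re := by
      rw [mul_assoc, Complex.re_ofReal_mul]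
    rw [e1]
    field_simp
  have e := ftc_zero (Φ := fun r => M r * X r * normSq (u r))
    (φ := fun r => 2 * c0 * (M r * normSq (u r)) + M r * X r * (2 * (u1 r * conj (u r)).re)) hb
    (fun r hr => by
      have h1 := ((h.sys r hr).hM.fun_mul (h.sys r hr).hX).fun_mul (hasDerivAt_normSq (hu r hr))
      refine h1.congr_deriv ?_
      have := (h.sys r hr).hMX
      rw [this]; ring)
    (BC.intble hb (((BC.const (2 * c0)).mul bMu).add bcr))
    (BC.vanish (ψ := fun r => M r * (X r / r) * normSq (u r))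
      ((h.bcM0.mul h.bcX).mul bu.normSq_) (fun r hr => by
        have hr' := hr.1.ne'
        rw [smul_eq_mul]
        field_simp))
  have e2 : ∫ r in (0 : ℝ)..b, (2 * c0 * (M r * normSq (u r))
      + M r * X r * (2 * (u1 r * conj (u r)).re))
      ≥ ∫ r in (0 : ℝ)..b, (c0 * (M r * normSq (u r))
        - Xm ^ 2 / c0 * (M r * normSq (u1 r))) := by
    refine intervalIntegral.integral_mono_on_of_le_Ioo hb.le ?_ ?_ ?_
    · exact BC.intble hb (((BC.const c0).mul bMu).sub ((BC.const (Xm ^ 2 / c0)).mul bMu1))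
    · exact BC.intble hb (((BC.const (2 * c0)).mul bMu).add bcr)
    · intro r hr
      have hr' : r ∈ Ioc 0 b := ⟨hr.1, hr.2.le⟩
      have hM0 := h.Mpos r hr'
      have hX0 := hX r hr'
      have h1 : |(u1 r * conj (u r)).re| ≤ ‖u1 r‖ * ‖u r‖ := by
        refine (Complex.abs_re_le_norm _).trans ?_
        rw [norm_mul, Complex.norm_conj]
      have h2 : -(c0 * normSq (u r)) - Xm ^ 2 / c0 * normSq (u1 r)
          ≤ X r * (2 * (u1 r * conj (u r)).re) := by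
        rw [Complex.normSq_eq_norm_sq, Complex.normSq_eq_norm_sq]
        have h3 : |X r * (2 * (u1 r * conj (u r)).re)| ≤ 2 * (Xm * (‖u1 r‖ * ‖u r‖)) := by
          rw [abs_mul, abs_mul, abs_two]
          have := mul_le_mul hX0 h1 (abs_nonneg _) ((abs_nonneg _).trans hX0)
          linarith
        have h4 := (abs_le.mp h3).1
        have h5 : 2 * (Xm * (‖u1 r‖ * ‖u r‖)) ≤ c0 * ‖u r‖ ^ 2 + Xm ^ 2 / c0 * ‖u1 r‖ ^ 2 := by
          have h6 : 0 ≤ (c0 * ‖u r‖ - Xm * ‖u1 r‖) ^ 2 / c0 := by positivity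
          have h7 : (c0 * ‖u r‖ - Xm * ‖u1 r‖) ^ 2 / c0
              = c0 * ‖u r‖ ^ 2 + Xm ^ 2 / c0 * ‖u1 r‖ ^ 2 - 2 * (Xm * (‖u1 r‖ * ‖u r‖)) := by
            field_simp
            ring
          linarith
        linarith
      have h8 := mul_le_mul_of_nonneg_left h2 hM0.le
      nlinarith
  rw [e] at e2
  rw [intervalIntegral.integral_sub (BC.intble hb ((BC.const c0).mul bMu))
    (BC.intble hb ((BC.const (Xm ^ 2 / c0)).mul bMu1)),
    intervalIntegral.integral_const_mul, intervalIntegral.integral_const_mul] at e2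
  linarith

theorem poincareA (h : SysOn c0 μ M X VA VB M' X' VA' VB' A B A1 B1 A2 B2 b) (hc0 : 0 < c0)
    {Xm : ℝ} (hX : ∀ r ∈ Ioc 0 b, |X r| ≤ Xm) :
    c0 * (∫ r in (0 : ℝ)..b, M r * normSq (A r)) ≤ M b * X b * normSq (A b)
      + Xm ^ 2 / c0 * ∫ r in (0 : ℝ)..b, M r * normSq (A1 r) :=
  h.poincare_aux hc0 hX h.bcA h.bcA1 (fun r hr => (h.sys r hr).hA) h.bcMA1

theorem poincareB (h : SysOn c0 μ M X VA VB M' X' VA' VB' A B A1 B1 A2 B2 b) (hc0 : 0 < c0)
    {Xm : ℝ} (hX : ∀ r ∈ Ioc 0 b, |X r| ≤ Xm) :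
    c0 * (∫ r in (0 : ℝ)..b, M r * normSq (B r)) ≤ M b * X b * normSq (B b)
      + Xm ^ 2 / c0 * ∫ r in (0 : ℝ)..b, M r * normSq (B1 r) :=
  h.poincare_aux hc0 hX h.bcB h.bcB1 (fun r hr => (h.sys r hr).hB) h.bcMB1

end SysOn

end Vale.Agent.P139.H498
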