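import Vale.Agent.P139.H498.Int4
import Vale.Agent.P139.H498.Int2

/-!
From an admissible radial pair and a radial profile to `SysOn`.
-/

open Complex Set MeasureTheory Filter Topology
open scoped ComplexConjugate

namespace Vale.Agent.P139.H498

open Vale.Agent.P139.BU

/-- Constructor of `SysOn` with separate constants. -/
theorem SysOn.mk' {c0 : ℝ} {μ : ℂ} {M X VA VB M' X' VA' VB' : ℝ → ℝ} {A B A1 B1 A2 B2 : ℝ → ℂ}
    {b : ℝ} (hb : 0 < b)
    (sys : ∀ r ∈ Ioc 0 b, SysAt c0 μ M X VA VB A B A1 B1 r (M' r) (X' r) (VA' r) (VB' r)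
      (A2 r) (B2 r))
    (cX' : ContinuousOn X' (Ioc 0 b)) (cVA' : ContinuousOn VA' (Ioc 0 b))
    (cVB' : ContinuousOn VB' (Ioc 0 b)) (Mpos : ∀ r ∈ Ioc 0 b, 0 < M r)
    (k1 : ∃ C, ∀ r ∈ Ioc 0 b, M r ≤ C * r ^ 2)
    (k2 : ∃ C, ∀ r ∈ Ioc 0 b, |M' r| ≤ C / r * M r)
    (k3 : ∃ C, ∀ r ∈ Ioc 0 b, |X r| ≤ C * r)
    (k4 : ∃ C, ∀ r ∈ Ioc 0 b, |X' r| ≤ C)
    (k5 : ∃ C, ∀ r ∈ Ioc 0 b, |VA r| ≤ C / r ^ 2)
    (k6 : ∃ C, ∀ r ∈ Ioc 0 b, |VB r| ≤ C / r ^ 2)
    (k7 : ∃ C, ∀ r ∈ Ioc 0 b, |VA' r| ≤ C / r ^ 3)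
    (k8 : ∃ C, ∀ r ∈ Ioc 0 b, |VB' r| ≤ C / r ^ 3)
    (bdd : ∃ C, ∀ r ∈ Ioc 0 b, ‖A r‖ ≤ C ∧ ‖B r‖ ≤ C) :
    SysOn c0 μ M X VA VB M' X' VA' VB' A B A1 B1 A2 B2 b := by
  obtain ⟨C1, h1⟩ := k1
  obtain ⟨C2, h2⟩ := k2
  obtain ⟨C3, h3⟩ := k3
  obtain ⟨C4, h4⟩ := k4
  obtain ⟨C5, h5⟩ := k5
  obtain ⟨C6, h6⟩ := k6
  obtain ⟨C7, h7⟩ := k7
  obtain ⟨C8, h8⟩ := k8
  refine ⟨hb, sys, cX', cVA', cVB', Mpos,
    ⟨|C1| + |C2| + |C3| + |C4| + |C5| + |C6| + |C7| + |C8|, fun r hr => ?_⟩, bdd⟩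
  set C := |C1| + |C2| + |C3| + |C4| + |C5| + |C6| + |C7| + |C8| with hC
  have a1 := abs_nonneg C1
  have a2 := abs_nonneg C2
  have a3 := abs_nonneg C3
  have a4 := abs_nonneg C4
  have a5 := abs_nonneg C5
  have a6 := abs_nonneg C6
  have a7 := abs_nonneg C7
  have a8 := abs_nonneg C8
  have l1 : C1 ≤ C := (le_abs_self C1).trans (by rw [hC]; linarith)
  have l2 : C2 ≤ C := (le_abs_self C2).trans (by rw [hC]; linarith)
  have l3 : C3 ≤ C := (le_abs_self C3).trans (by rw [hC]; linarith)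
  have l4 : C4 ≤ C := (le_abs_self C4).trans (by rw [hC]; linarith)
  have l5 : C5 ≤ C := (le_abs_self C5).trans (by rw [hC]; linarith)
  have l6 : C6 ≤ C := (le_abs_self C6).trans (by rw [hC]; linarith)
  have l7 : C7 ≤ C := (le_abs_self C7).trans (by rw [hC]; linarith)
  have l8 : C8 ≤ C := (le_abs_self C8).trans (by rw [hC]; linarith)
  have hr0 : 0 < r := hr.1
  have hM := Mpos r hr
  refine ⟨(h1 r hr).trans ?_, (h2 r hr).trans ?_, (h3 r hr).trans ?_, (h4 r hr).trans l4,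
    (h5 r hr).trans ?_, (h6 r hr).trans ?_, (h7 r hr).trans ?_, (h8 r hr).trans ?_⟩ <;> gcongr

/-- Second derivative of the profile from the equation. -/
noncomputable def q2of (d m : ℕ) (w : ℝ) (q q1 : ℝ → ℂ) (r : ℝ) : ℂ :=
  W1 m (q r) * q r - ((((d : ℂ) - 1) / r) * q1 r + (I / 2) * (r * q1 r)
      + ((w : ℂ) + I * (aa m : ℂ)) * q r)

theorem bdd_of_radAdm {K : ℕ} {F : ℝ → ℂ} (hF : RadAdm K F) {b : ℝ} :
    ∃ C, ∀ r ∈ Ioc 0 b, ‖F r‖ ≤ C := by
  obtain ⟨C, hC⟩ := hF.bdd0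
  have hc : ContinuousOn F (Icc (1 / 2) b) :=
    hF.smooth.continuousOn.mono fun x hx => lt_of_lt_of_le (by norm_num) hx.1
  obtain ⟨C', hC'⟩ := isCompact_Icc.exists_bound_of_continuousOn hc
  refine ⟨max C C', fun r hr => ?_⟩
  rcases lt_or_ge r 1 with h | h
  · exact (hC r ⟨hr.1, h⟩).trans (le_max_left _ _)
  · exact (hC' r ⟨by linarith, hr.2⟩).trans (le_max_right _ _)

theorem hasDerivAt_of_radAdm {K : ℕ} (hK : 2 ≤ K) {F : ℝ → ℂ} (hF : RadAdm K F) {r : ℝ}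
    (hr : 0 < r) : HasDerivAt F (deriv F r) r ∧ HasDerivAt (deriv F) (deriv (deriv F) r) r := by
  have h2 : ContDiffOn ℝ 2 F (Ioi 0) := hF.smooth.of_le (by exact_mod_cast hK)
  have ho : IsOpen (Ioi (0 : ℝ)) := isOpen_Ioi
  have hd1 : ContDiffOn ℝ 1 (deriv F) (Ioi 0) := h2.deriv_of_isOpen ho (by norm_num)
  have hmem : Ioi (0 : ℝ) ∈ 𝓝 r := ho.mem_nhds hr
  exact ⟨((h2.differentiableOn (by norm_num)).differentiableAt hmem).hasDerivAt,
    ((hd1.differentiableOn (by norm_num)).differentiableAt hmem).hasDerivAt⟩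

/-- The bridge: radial profile + admissible pair solving the radial eigenvalue system gives
`SysOn` on `(0,b]`. -/
theorem sysOn_of_radAdm {d m l K : ℕ} {w : ℝ} {lam : ℂ} {q q1 : ℝ → ℂ} {F G : ℝ → ℂ}
    {b c C : ℝ} (hd : 3 ≤ d) (hm : 1 ≤ m) (hK : 2 ≤ K) (hb : 0 < b) (hc : 0 < c)
    (hq : ∀ r ∈ Ioc 0 b, HasDerivAt q (q1 r) r)
    (hq1 : ∀ r ∈ Ioc 0 b, HasDerivAt q1 (q2of d m w q q1 r) r)
    (hqb : ∀ r ∈ Ioc 0 b, c ≤ ‖q r‖ ∧ ‖q r‖ ≤ C ∧ ‖q1 r‖ ≤ C * r)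
    (hF : RadAdm K F) (hG : RadAdm K G)
    (h1 : ∀ r > 0, RL1 d m l w q F G r = lam * F r)
    (h2 : ∀ r > 0, RL2 d m l w q F G r = lam * G r) :
    SysOn ((d : ℝ) / 4 - aa m) (lam - (((d : ℝ) / 4 - aa m : ℝ) : ℂ)) (gM d q) (gX q q1)
      (gVA d m l q) (gVB d l) (gM' d q q1) (gX' q q1 (q2of d m w q q1)) (gVA' d m l q q1)
      (gVB' d l) (gA q F G) (gB q F G) (gA1 q q1 F (deriv F) G (deriv G))
      (gB1 q q1 F (deriv F) G (deriv G))
      (gA2 q q1 (q2of d m w q q1) F (deriv F) (deriv (deriv F)) G (deriv G) (deriv (deriv G)))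
      (gB2 q q1 (q2of d m w q q1) F (deriv F) (deriv (deriv F)) G (deriv G) (deriv (deriv G)))
      b := by
  have hC0 : 0 < C := hc.trans_le ((hqb b ⟨hb, le_rfl⟩).1.trans (hqb b ⟨hb, le_rfl⟩).2.1)
  have hq0 : ∀ r ∈ Ioc 0 b, q r ≠ 0 := fun r hr h0 => by
    have := (hqb r hr).1
    rw [h0, norm_zero] at this
    linarith
  have hcq : ContinuousOn q (Ioc 0 b) := fun r hr => (hq r hr).continuousAt.continuousWithinAt
  have hcq1 : ContinuousOn q1 (Ioc 0 b) := fun r hr => (hq1 r hr).continuousAt.continuousWithinAt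
  have hcq' : ContinuousOn (fun r => conj (q r)) (Ioc 0 b) :=
    Complex.continuous_conj.comp_continuousOn hcq
  have hcr : ContinuousOn (fun r : ℝ => (r : ℂ)) (Ioc 0 b) :=
    Complex.continuous_ofReal.continuousOn
  have hrne : ∀ r ∈ Ioc (0 : ℝ) b, (r : ℂ) ≠ 0 := fun r hr => by exact_mod_cast hr.1.ne'
  have hcq2 : ContinuousOn (q2of d m w q q1) (Ioc 0 b) := by
    refine ContinuousOn.sub ?_ (ContinuousOn.add (ContinuousOn.add ?_ ?_) ?_)
    · exact ((hcq.mul hcq').pow m).mul hcq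
    · exact (continuousOn_const.div hcr hrne).mul hcq1
    · exact continuousOn_const.mul (hcr.mul hcq1)
    · exact continuousOn_const.mul hcq
  have hns : ∀ r ∈ Ioc 0 b, normSq (q r) ≠ 0 := fun r hr => by simpa using hq0 r hr
  have hnc : ContinuousOn (fun r => normSq (q r)) (Ioc 0 b) :=
    Complex.continuous_normSq.comp_continuousOn hcq
  have hc1c : ContinuousOn (fun r => q1 r * conj (q r)) (Ioc 0 b) := hcq1.mul hcq'
  have hc2c : ContinuousOn (fun r => q2of d m w q q1 r * conj (q r)) (Ioc 0 b) := hcq2.mul hcq'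
  have hre : ContinuousOn (fun r => (q1 r * conj (q r)).re) (Ioc 0 b) :=
    Complex.continuous_re.comp_continuousOn hc1c
  have him : ContinuousOn (fun r => (q1 r * conj (q r)).im) (Ioc 0 b) :=
    Complex.continuous_im.comp_continuousOn hc1c
  have him2 : ContinuousOn (fun r => (q2of d m w q q1 r * conj (q r)).im) (Ioc 0 b) :=
    Complex.continuous_im.comp_continuousOn hc2c
  have hcid : ContinuousOn (fun r : ℝ => r) (Ioc 0 b) := continuousOn_id
  have hrne' : ∀ r ∈ Ioc (0 : ℝ) b, r ≠ 0 := fun r hr => hr.1.ne'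
  have hVBc : ContinuousOn (gVB' d l) (Ioc 0 b) := by
    refine ContinuousOn.neg (continuousOn_const.div (hcid.pow 3) ?_)
    exact fun r hr => pow_ne_zero 3 (hrne' r hr)
  have hP'c : ContinuousOn (gP' m q q1) (Ioc 0 b) :=
    (continuousOn_const.mul (hnc.pow _)).mul (continuousOn_const.mul hre)
  -- norm bounds
  have nq : ∀ r ∈ Ioc 0 b, c ^ 2 ≤ normSq (q r) ∧ normSq (q r) ≤ C ^ 2 := fun r hr => by
    rw [Complex.normSq_eq_norm_sq]
    obtain ⟨e1, e2, _⟩ := hqb r hr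
    exact ⟨pow_le_pow_left₀ hc.le e1 2, pow_le_pow_left₀ (norm_nonneg _) e2 2⟩
  have nq1 : ∀ r ∈ Ioc 0 b, ‖q1 r * conj (q r)‖ ≤ C ^ 2 * r := fun r hr => by
    rw [norm_mul, Complex.norm_conj]
    obtain ⟨_, e2, e3⟩ := hqb r hr
    calc ‖q1 r‖ * ‖q r‖ ≤ C * r * C := mul_le_mul e3 e2 (norm_nonneg _)
          (mul_nonneg hC0.le hr.1.le)
      _ = C ^ 2 * r := by ring
  have hL0 : 0 ≤ |gL d l| := abs_nonneg _
  refine SysOn.mk' hb ?_ ?_ ?_ hVBc ?_ ?_ ?_ ?_ ?_ ?_ ?_ ?_ ?_ ?_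
  · intro r hr
    obtain ⟨dF, dF1⟩ := hasDerivAt_of_radAdm hK hF hr.1
    obtain ⟨dG, dG1⟩ := hasDerivAt_of_radAdm hK hG hr.1
    have e1 := h1 r hr.1
    have e2 := h2 r hr.1
    simp only [RL1, RL2, lapl] at e1 e2
    exact gauge_sysAt (F2 := deriv (deriv F)) (G2 := deriv (deriv G)) (by omega) hm hr.1
      (hq0 r hr) (hq r hr) (hq1 r hr) dF dF1 dG dG1 (by simp only [q2of]; ring) e1 e2
  · refine continuousOn_const.add (continuousOn_const.mul (ContinuousOn.sub ?_ ?_))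
    · exact him2.div hnc hns
    · exact (him.mul (continuousOn_const.mul hre)).div (hnc.pow 2)
        fun r hr => pow_ne_zero 2 (hns r hr)
  · exact hVBc.add (continuousOn_const.mul hP'c)
  · intro r hr
    exact mul_pos (lt_of_lt_of_le (by positivity) (nq r hr).1) (pow_pos hr.1 _)
  · refine ⟨C ^ 2 * b ^ (d - 3), fun r hr => ?_⟩
    have e1 : r ^ (d - 1) = r ^ (d - 3) * r ^ 2 := by rw [← pow_add]; congr 1; omega
    have e2 : r ^ (d - 3) ≤ b ^ (d - 3) := pow_le_pow_left₀ hr.1.le hr.2 _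
    simp only [gM]
    rw [e1]
    have h3 := mul_le_mul (nq r hr).2 e2 (pow_nonneg hr.1.le _) (by positivity)
    have h4 := mul_le_mul_of_nonneg_right h3 (sq_nonneg r)
    linarith
  · refine ⟨2 * C ^ 2 * b ^ 2 / c ^ 2 + d, fun r hr => ?_⟩
    have hr0 := hr.1
    obtain ⟨e1, e2⟩ := nq r hr
    have hn0 : 0 < normSq (q r) := lt_of_lt_of_le (by positivity) e1
    have hrp : 0 < r ^ (d - 1) := pow_pos hr0 _
    simp only [gM', gM]
    have e3 : |2 * (q1 r * conj (q r)).re| ≤ 2 * (C ^ 2 * r) := by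
      rw [abs_mul, abs_two]
      have := (Complex.abs_re_le_norm _).trans (nq1 r hr)
      linarith
    have e4 : |2 * (q1 r * conj (q r)).re * r ^ (d - 1)
        + normSq (q r) * (((d : ℝ) - 1) / r * r ^ (d - 1))|
        ≤ 2 * (C ^ 2 * r) * r ^ (d - 1) + normSq (q r) * ((d : ℝ) / r * r ^ (d - 1)) := by
      refine (abs_add_le _ _).trans (add_le_add ?_ ?_)
      · rw [abs_mul, abs_of_pos hrp]
        exact mul_le_mul_of_nonneg_right e3 hrp.le
      · have hd1 : (3 : ℝ) ≤ d := by exact_mod_cast hd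
        rw [abs_of_nonneg (by
          have : 0 ≤ ((d : ℝ) - 1) / r := div_nonneg (by linarith) hr0.le
          positivity)]
        have : ((d : ℝ) - 1) / r ≤ (d : ℝ) / r := by gcongr; linarith
        gcongr
    refine e4.trans ?_
    have e5 : (2 * C ^ 2 * b ^ 2 / c ^ 2 + d) / r * (normSq (q r) * r ^ (d - 1))
        = 2 * C ^ 2 * b ^ 2 / c ^ 2 / r * normSq (q r) * r ^ (d - 1)
          + normSq (q r) * ((d : ℝ) / r * r ^ (d - 1)) := by ring
    rw [e5]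
    refine add_le_add (mul_le_mul_of_nonneg_right ?_ hrp.le) le_rfl
    have e6 : 2 * (C ^ 2 * r) ≤ 2 * C ^ 2 * b ^ 2 / c ^ 2 / r * c ^ 2 := by
      have : 2 * C ^ 2 * b ^ 2 / c ^ 2 / r * c ^ 2 = 2 * C ^ 2 * b ^ 2 / r := by
        field_simp
      rw [this, le_div_iff₀ hr0]
      have hrb : r * r ≤ b ^ 2 := by nlinarith [hr.2]
      nlinarith [mul_le_mul_of_nonneg_left hrb (by positivity : (0 : ℝ) ≤ 2 * C ^ 2)]
    refine e6.trans (mul_le_mul_of_nonneg_left e1 (by positivity))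
  · refine ⟨1 / 2 + 2 * (C ^ 2 / c ^ 2), fun r hr => ?_⟩
    have hr0 := hr.1
    obtain ⟨e1, e2⟩ := nq r hr
    have hn0 : 0 < normSq (q r) := lt_of_lt_of_le (by positivity) e1
    simp only [gX]
    refine (abs_add_le _ _).trans ?_
    rw [abs_of_pos (by positivity : 0 < r / 2), abs_mul, abs_two, abs_div, abs_of_pos hn0]
    have e3 : |(q1 r * conj (q r)).im| ≤ C ^ 2 * r :=
      (Complex.abs_im_le_norm _).trans (nq1 r hr)
    have e4 : |(q1 r * conj (q r)).im| / normSq (q r) ≤ C ^ 2 * r / c ^ 2 := by gcongr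
    have e5 : C ^ 2 * r / c ^ 2 = C ^ 2 / c ^ 2 * r := by ring
    rw [e5] at e4
    linarith
  · -- bound of X'
    refine ⟨1 / 2 + 2 * ((C ^ (2 * m) * C + (d * C + 1 / 2 * (b * (C * b)) + (‖(w : ℂ)
      + I * (aa m : ℂ)‖) * C)) * C / c ^ 2 + C ^ 2 * b * (2 * (C ^ 2 * b)) / (c ^ 2) ^ 2),
      fun r hr => ?_⟩
    have hr0 := hr.1
    obtain ⟨e1, e2⟩ := nq r hr
    obtain ⟨g1, g2, g3⟩ := hqb r hr
    have hn0 : 0 < normSq (q r) := lt_of_lt_of_le (by positivity) e1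
    have hd1 : (3 : ℝ) ≤ d := by exact_mod_cast hd
    have eW : ‖W1 m (q r)‖ ≤ C ^ (2 * m) := by
      rw [W1, norm_pow, norm_mul, Complex.norm_conj, ← sq, ← pow_mul]
      exact pow_le_pow_left₀ (norm_nonneg _) g2 _
    have eq2 : ‖q2of d m w q q1 r‖ ≤ C ^ (2 * m) * C + (d * C + 1 / 2 * (b * (C * b))
        + ‖(w : ℂ) + I * (aa m : ℂ)‖ * C) := by
      rw [q2of]
      refine (norm_sub_le _ _).trans (add_le_add ?_ ?_)
      · rw [norm_mul]
        exact mul_le_mul eW g2 (norm_nonneg _) (by positivity)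
      · refine (norm_add_le _ _).trans (add_le_add ((norm_add_le _ _).trans
          (add_le_add ?_ ?_)) ?_)
        · rw [norm_mul, norm_div, Complex.norm_real, Real.norm_eq_abs, abs_of_pos hr0]
          have : ‖(d : ℂ) - 1‖ ≤ d := by
            have e : ((d : ℂ) - 1) = (((d : ℝ) - 1 : ℝ) : ℂ) := by push_cast; ring
            rw [e, Complex.norm_real, Real.norm_eq_abs, abs_of_nonneg (by linarith)]
            linarith
          calc ‖(d : ℂ) - 1‖ / r * ‖q1 r‖ ≤ d / r * (C * r) := by gcongr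
            _ = d * C := by field_simp
        · rw [norm_mul, norm_mul, norm_div, Complex.norm_I, Complex.norm_real, Real.norm_eq_abs,
            abs_of_pos hr0]
          have h2' : ‖(2 : ℂ)‖ = 2 := by norm_num
          rw [h2']
          have hrb := hr.2
          gcongr
          exact g3.trans (by gcongr)
        · rw [norm_mul]
          gcongr
    have e3 : |(q1 r * conj (q r)).im| ≤ C ^ 2 * b :=
      ((Complex.abs_im_le_norm _).trans (nq1 r hr)).trans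
        (mul_le_mul_of_nonneg_left hr.2 (by positivity))
    have e4 : |(q1 r * conj (q r)).re| ≤ C ^ 2 * b :=
      ((Complex.abs_re_le_norm _).trans (nq1 r hr)).trans
        (mul_le_mul_of_nonneg_left hr.2 (by positivity))
    have e5 : |(q2of d m w q q1 r * conj (q r)).im| ≤ (C ^ (2 * m) * C + (d * C
        + 1 / 2 * (b * (C * b)) + ‖(w : ℂ) + I * (aa m : ℂ)‖ * C)) * C := by
      refine (Complex.abs_im_le_norm _).trans ?_
      rw [norm_mul, Complex.norm_conj]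
      exact mul_le_mul eq2 g2 (norm_nonneg _) (by positivity)
    simp only [gX']
    refine (abs_add_le _ _).trans ?_
    rw [abs_of_pos (by norm_num : (0 : ℝ) < 1 / 2), abs_mul, abs_two]
    refine add_le_add le_rfl (mul_le_mul_of_nonneg_left ?_ (by norm_num))
    refine (abs_sub _ _).trans (add_le_add ?_ ?_)
    · rw [abs_div, abs_of_pos hn0]
      gcongr
    · rw [abs_div, abs_mul, abs_mul, abs_two, abs_of_pos (pow_pos hn0 2)]
      gcongr
  · -- bound of VA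
    refine ⟨|gL d l| + 2 * m * (C ^ 2) ^ m * b ^ 2, fun r hr => ?_⟩
    have hr0 := hr.1
    obtain ⟨e1, e2⟩ := nq r hr
    have hn0 : 0 ≤ normSq (q r) := Complex.normSq_nonneg _
    simp only [gVA]
    refine (abs_add_le _ _).trans ?_
    rw [add_div, abs_div, abs_of_pos (pow_pos hr0 2), abs_of_nonneg (by positivity :
      0 ≤ 2 * (m : ℝ) * normSq (q r) ^ m)]
    refine add_le_add le_rfl ?_
    rw [le_div_iff₀ (pow_pos hr0 2)]
    have hrb : r ^ 2 ≤ b ^ 2 := pow_le_pow_left₀ hr0.le hr.2 2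
    gcongr
  · refine ⟨|gL d l|, fun r hr => ?_⟩
    simp only [gVB]
    rw [abs_div, abs_of_pos (pow_pos hr.1 2)]
  · -- bound of VA'
    refine ⟨2 * |gL d l| + 2 * m * (m * (C ^ 2) ^ (m - 1) * (2 * (C ^ 2 * b))) * b ^ 3,
      fun r hr => ?_⟩
    have hr0 := hr.1
    obtain ⟨e1, e2⟩ := nq r hr
    have hn0 : 0 ≤ normSq (q r) := Complex.normSq_nonneg _
    have e4 : |(q1 r * conj (q r)).re| ≤ C ^ 2 * b :=
      ((Complex.abs_re_le_norm _).trans (nq1 r hr)).trans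
        (mul_le_mul_of_nonneg_left hr.2 (by positivity))
    simp only [gVA', gVB', gP']
    refine (abs_add_le _ _).trans ?_
    rw [add_div, abs_neg, abs_div, abs_mul, abs_two, abs_of_pos (pow_pos hr0 3)]
    refine add_le_add le_rfl ?_
    rw [le_div_iff₀ (pow_pos hr0 3), abs_mul, abs_mul, abs_mul, abs_mul, abs_two,
      abs_of_nonneg (pow_nonneg hn0 _), abs_mul, abs_two, Nat.abs_cast]
    have hrb : r ^ 3 ≤ b ^ 3 := pow_le_pow_left₀ hr0.le hr.2 3
    gcongr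
  · refine ⟨2 * |gL d l|, fun r hr => ?_⟩
    simp only [gVB']
    rw [abs_neg, abs_div, abs_mul, abs_two, abs_of_pos (pow_pos hr.1 3)]
  · -- boundedness of A, B
    obtain ⟨CF, hCF⟩ := bdd_of_radAdm hF (b := b)
    obtain ⟨CG, hCG⟩ := bdd_of_radAdm hG (b := b)
    refine ⟨(CF / c + CG / c) / 2, fun r hr => ?_⟩
    obtain ⟨g1, _, _⟩ := hqb r hr
    have hF0 : 0 ≤ CF := (norm_nonneg _).trans (hCF r hr)
    have hG0 : 0 ≤ CG := (norm_nonneg _).trans (hCG r hr)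
    have e1 : ‖gf q F r‖ ≤ CF / c := by
      rw [gf, norm_div]
      exact div_le_div₀ hF0 (hCF r hr) hc g1
    have e2 : ‖gf (fun r => conj (q r)) G r‖ ≤ CG / c := by
      rw [gf, norm_div, Complex.norm_conj]
      exact div_le_div₀ hG0 (hCG r hr) hc g1
    constructor
    · rw [gA, norm_div]
      have : ‖(2 : ℂ)‖ = 2 := by norm_num
      rw [this]
      have := norm_add_le (gf q F r) (gf (fun r => conj (q r)) G r)
      linarith
    · rw [gB, norm_div, norm_mul, Complex.norm_I]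
      have : ‖(2 : ℂ)‖ = 2 := by norm_num
      rw [this, mul_one]
      have := norm_sub_le (gf q F r) (gf (fun r => conj (q r)) G r)
      linarith

end Vale.Agent.P139.H498
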